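import Vale.Agent.P078.TypeIII.Decomp

/-!
# Uniform smallness after alternating words, and bounded approximants

A bounded element which is small at `Ω` stays small after every product of contractions of `A`
and fixed elements. An element generated by normalisers is a norm limit of elements which have
bounded approximants at `Ω` in the closed span of the normalisers: bounded transforms converge
because the vectors `R Ω`, `R` in the commutant, are dense.
-/

set_option linter.unusedSectionVars false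

namespace Vale.Agent.P078.TypeIII.Seeded

open ComplexInnerProductSpace
open Filter Topology
open Vale.Agent.P078 Vale.Agent.P078.General Vale.Agent.P078.Finite
open scoped CStarAlgebra

universe u

variable {H : Type u} [NormedAddCommGroup H] [InnerProductSpace ℂ H] [CompleteSpace H]
variable {M : VonNeumannAlgebra H} {A : StarSubalgebra ℂ (H →L[ℂ] H)} {Ω : H}

/-- The closed span of the normalisers as a real star algebra. -/
noncomputable def realSpanC (hA : IsMASAIn M A) : StarSubalgebra ℝ (H →L[ℂ] H) where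
  carrier := spanC M A
  mul_mem' := spanC_mul hA
  one_mem' := mem_spanC_of_mem_A hA (one_mem A)
  add_mem' := add_mem
  zero_mem' := zero_mem _
  algebraMap_mem' c := by
    rw [Algebra.algebraMap_eq_smul_one]
    exact (spanC M A).smul_of_tower_mem c (mem_spanC_of_mem_A hA (one_mem A))
  star_mem' := spanC_star

lemma cfc_mem_spanC (hA : IsMASAIn M A) {s : H →L[ℂ] H} (hs : s ∈ spanC M A) (f : ℝ → ℝ) :
    cfc f s ∈ spanC M A := by
  have hcl : IsClosed (realSpanC hA : Set (H →L[ℂ] H)) :=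
    Submodule.isClosed_topologicalClosure _
  exact StarAlgebra.elemental.le_of_mem hcl (show s ∈ realSpanC hA from hs)
    (cfc_mem_elemental f s)

variable (h : CentSetting M A Ω)
include h

/-- Right multiplication by `A` is bounded at `Ω`. -/
lemma norm_mul_A_le {T b : H →L[ℂ] H} (hT : T ∈ M) (hb : b ∈ A) :
    ‖(T * b) Ω‖ ≤ ‖b‖ * ‖T Ω‖ := by
  have hA := h.masa
  set c : H →L[ℂ] H := ((‖b‖ ^ 2 : ℝ) : ℂ) • 1 - b * star b with hc
  have hcA : c ∈ A := sub_mem (A.toSubalgebra.smul_mem (one_mem A) _) (mul_mem hb (star_mem hb))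
  have hcp : Pos c := by
    refine ⟨by simp [hc, IsSelfAdjoint], fun v => ?_⟩
    rw [hc, sub_apply, smul_apply, one_apply_eq_self, inner_sub_right, inner_smul_right,
      Complex.sub_re, Complex.re_ofReal_mul, sub_nonneg]
    have e1 : (⟪v, (b * star b) v⟫).re = ‖star b v‖ ^ 2 := by
      rw [@norm_sq_eq_re_inner ℂ, inner_apply, star_star]; rfl
    have e2 : (⟪v, v⟫).re = ‖v‖ ^ 2 := by
      rw [@norm_sq_eq_re_inner ℂ]; rfl
    rw [e1, e2, ← mul_pow]
    refine pow_le_pow_left₀ (norm_nonneg _) ?_ 2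
    simpa using (star b).le_opNorm v
  obtain ⟨s, hs, hss, hsd⟩ := hcp.exists_sqrt
  have hsA : s ∈ A := hsd ▸ cfc_mem_A hA hcA _
  have hY : star T * T ∈ M := mul_mem (star_mem hT) hT
  have e1 : (⟪Ω, (star T * T * c) Ω⟫).re = ‖(T * s) Ω‖ ^ 2 := by
    rw [@norm_sq_eq_re_inner ℂ, RCLike.re_to_complex, inner_apply, star_mul, hs.star_eq,
      ← hss, ← mul_assoc, ← h.central s hsA _ (mul_mem hY (hA.mem_M hsA))]
    simp only [mul_assoc]
  have e2 : (⟪Ω, (star T * T * (b * star b)) Ω⟫).re = ‖(T * b) Ω‖ ^ 2 := by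
    rw [@norm_sq_eq_re_inner ℂ, RCLike.re_to_complex, inner_apply, star_mul,
      ← mul_assoc, ← h.central _ (star_mem hb) _ (mul_mem hY (hA.mem_M hb))]
    simp only [mul_assoc]
  have e3 : (⟪Ω, (star T * T) Ω⟫).re = ‖T Ω‖ ^ 2 := by
    rw [@norm_sq_eq_re_inner ℂ, RCLike.re_to_complex, inner_apply]
  rw [hc, mul_sub, mul_smul_comm, mul_one, sub_apply, smul_apply, inner_sub_right,
    inner_smul_right, Complex.sub_re, Complex.re_ofReal_mul, e2, e3] at e1
  refine (sq_le_sq₀ (norm_nonneg _) (by positivity)).1 ?_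
  rw [mul_pow]
  linarith [sq_nonneg ‖(T * s) Ω‖]

/-- **Uniform smallness.** The alternating products of contractions of `A` and fixed elements
carry small elements to small vectors, uniformly. -/
theorem exists_eps_Aword : ∀ {ys : List (H →L[ℂ] H)}, (∀ y ∈ ys, y ∈ M) → ∀ {C η : ℝ}, 0 ≤ C →
    0 < η → ∃ ε, 0 < ε ∧ ∀ T ∈ M, ‖T‖ ≤ C → ‖T Ω‖ ≤ ε →
      ∀ L : List ((H →L[ℂ] H) × (H →L[ℂ] H)), L.map Prod.snd = ys →
        (∀ x ∈ L, x.1 ∈ A ∧ ‖x.1‖ ≤ 1) → ‖(T * (L.map fun x => x.1 * x.2).prod) Ω‖ ≤ η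
  | [], _, C, η, _, hη => ⟨η, hη, fun T _ _ hs L hL _ => by
      rw [List.map_eq_nil_iff.1 hL]
      simpa using hs⟩
  | y :: ys, hys, C, η, hC, hη => by
    have hA := h.masa
    obtain ⟨ε', hε', ih⟩ := exists_eps_Aword (ys := ys)
      (fun z hz => hys z (List.mem_cons_of_mem _ hz)) (C := C * ‖y‖) (by positivity) hη
    obtain ⟨R, hR, hd⟩ := exists_commutant_near h (y Ω)
      (show 0 < ε' / (2 * (C + 1)) by positivity)
    refine ⟨ε' / (2 * (‖R‖ + 1)), by positivity, fun T hT hTC hs L hL hLA => ?_⟩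
    obtain ⟨⟨b, y'⟩, L', rfl⟩ := List.exists_cons_of_ne_nil
      (show L ≠ [] by intro e; simp [e] at hL)
    simp only [List.map_cons, List.cons.injEq] at hL
    obtain ⟨rfl, hL'⟩ := hL
    obtain ⟨hbA, hb1⟩ := hLA (b, y') (List.mem_cons_self ..)
    simp only at hbA hb1
    have hyM : y' ∈ M := hys y' (List.mem_cons_self ..)
    have hTb : T * b ∈ M := mul_mem hT (hA.mem_M hbA)
    have key := ih (T * b * y') (mul_mem hTb hyM) ?_ ?_ L' hL'
      (fun x hx => hLA x (List.mem_cons_of_mem _ hx))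
    · simpa [mul_assoc] using key
    · refine (norm_mul_le _ _).trans (mul_le_mul_of_nonneg_right ?_ (norm_nonneg _))
      exact ((norm_mul_le _ _).trans (mul_le_of_le_one_right (norm_nonneg _) hb1)).trans hTC
    · have e : (T * b * y') Ω = (T * b) (y' Ω - R Ω) + R ((T * b) Ω) := by
        rw [← commutant_comm hR hTb, map_sub, sub_add_cancel]
        rfl
      rw [e]
      refine (norm_add_le _ _).trans ?_
      have a1 : ‖(T * b) (y' Ω - R Ω)‖ ≤ ε' / 2 := by
        refine ((T * b).le_opNorm _).trans ?_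
        refine (mul_le_mul (((norm_mul_le _ _).trans
          (mul_le_of_le_one_right (norm_nonneg _) hb1)).trans (hTC.trans (le_add_of_nonneg_right
            zero_le_one))) hd.le (norm_nonneg _) (by positivity)).trans (le_of_eq ?_)
        field_simp
      have a2 : ‖R ((T * b) Ω)‖ ≤ ε' / 2 := by
        refine (R.le_opNorm _).trans ?_
        refine (mul_le_mul (le_add_of_nonneg_right zero_le_one)
          (((norm_mul_A_le h hT hbA).trans (mul_le_of_le_one_left (norm_nonneg _) hb1)).trans hs)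
          (norm_nonneg _) (by positivity)).trans (le_of_eq ?_)
        field_simp
      linarith

/-- The bounded transform. -/
noncomputable def btr (a : H →L[ℂ] H) : H →L[ℂ] H := cfc (fun t : ℝ => 1 / (1 + t ^ 2)) a * a

omit h in
lemma btr_facts {a : H →L[ℂ] H} (ha : IsSelfAdjoint a) :
    (cfc (fun t : ℝ => 1 / (1 + t ^ 2)) a * (1 + a * a) = 1 ∧
      (1 + a * a) * cfc (fun t : ℝ => 1 / (1 + t ^ 2)) a = 1) ∧
    ‖cfc (fun t : ℝ => 1 / (1 + t ^ 2)) a‖ ≤ 1 ∧ ‖btr a‖ ≤ 1 ∧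
      a * cfc (fun t : ℝ => 1 / (1 + t ^ 2)) a = btr a := by
  have hp : ∀ t : ℝ, (0 : ℝ) < 1 + t ^ 2 := fun t => by positivity
  have hc : Continuous (fun t : ℝ => 1 / (1 + t ^ 2)) :=
    continuous_const.div (by fun_prop) fun t => (hp t).ne'
  have hcomm : Commute (cfc (fun t : ℝ => 1 / (1 + t ^ 2)) a) a :=
    Commute.cfc_real (Commute.refl a) _
  have e : cfc (fun t : ℝ => 1 + t * t) a = 1 + a * a := by
    rw [cfc_const_add (1 : ℝ) (fun t => t * t) a, cfc_mul (fun t : ℝ => t) (fun t => t) a,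
      cfc_id' ℝ a, map_one]
  have h1 : cfc (fun t : ℝ => 1 / (1 + t ^ 2)) a * (1 + a * a) = 1 := by
    rw [← e, ← cfc_mul _ _ a hc.continuousOn (by fun_prop), ← cfc_const_one ℝ a]
    refine cfc_congr fun t _ => ?_
    rw [← sq, one_div, inv_mul_cancel₀ (hp t).ne']
  refine ⟨⟨h1, ?_⟩, norm_cfc_le zero_le_one fun t _ => ?_, ?_, hcomm.eq.symm⟩
  · exact ((((Commute.one_right _).add_right (hcomm.mul_right hcomm)).eq).symm).trans h1
  · rw [Real.norm_eq_abs, abs_of_pos (div_pos one_pos (hp t))]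
    exact (div_le_one (hp t)).2 (by nlinarith)
  · rw [btr]
    nth_rewrite 2 [← cfc_id' ℝ a]
    rw [← cfc_mul _ _ a hc.continuousOn continuous_id'.continuousOn]
    refine norm_cfc_le zero_le_one fun t _ => ?_
    rw [Real.norm_eq_abs, abs_mul, abs_of_pos (div_pos one_pos (hp t)), div_mul_eq_mul_div,
      div_le_one (hp t), one_mul]
    nlinarith [sq_nonneg (|t| - 1), sq_abs t]

omit h in
lemma btr_sa {a : H →L[ℂ] H} (ha : IsSelfAdjoint a) : IsSelfAdjoint (btr a) :=
  (IsSelfAdjoint.commute_iff (cfc_predicate _ a) ha).1 (Commute.cfc_real (Commute.refl a) _)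

omit h in
/-- The bounded transform is close to the identity near `0`. -/
lemma norm_btr_sub_le {a : H →L[ℂ] H} (ha : IsSelfAdjoint a) : ‖btr a - a‖ ≤ ‖a‖ ^ 3 := by
  obtain ⟨⟨h1, -⟩, hq, -, -⟩ := btr_facts ha
  set q := cfc (fun t : ℝ => 1 / (1 + t ^ 2)) a with hqd
  have e : btr a - a = -(q * (a * a * a)) := by
    rw [btr, ← hqd, eq_neg_iff_add_eq_zero]
    calc q * a - a + q * (a * a * a) = q * (1 + a * a) * a - a := by
          simp only [mul_add, add_mul, mul_one, mul_assoc]; abel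
      _ = 0 := by rw [h1, one_mul, sub_self]
  rw [e, norm_neg]
  refine (norm_mul_le _ _).trans ((mul_le_of_le_one_left (norm_nonneg _) hq).trans ?_)
  refine ((norm_mul_le _ _).trans (mul_le_mul_of_nonneg_right (norm_mul_le _ _)
    (norm_nonneg _))).trans (le_of_eq ?_)
  ring

/-- **Resolvent convergence on the core.** The bounded transforms of self-adjoint approximants
at `Ω` approximate at `Ω`. -/
theorem exists_eps_btr {a : H →L[ℂ] H} (ha : IsSelfAdjoint a) (haM : a ∈ M) {η : ℝ}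
    (hη : 0 < η) :
    ∃ ε, 0 < ε ∧ ∀ s, IsSelfAdjoint s → s ∈ M → ‖(s - a) Ω‖ ≤ ε →
      ‖(btr s - btr a) Ω‖ ≤ η := by
  obtain ⟨⟨-, hqa⟩, -, -, haq⟩ := btr_facts ha
  set qa := cfc (fun t : ℝ => 1 / (1 + t ^ 2)) a with hqad
  obtain ⟨R1, hR1, hd1⟩ := exists_commutant_near h (qa Ω)
    (show 0 < η / (4 * (‖a‖ + 3)) by positivity)
  obtain ⟨R2, hR2, hd2⟩ := exists_commutant_near h (btr a Ω)
    (show 0 < η / (4 * (‖a‖ + 3)) by positivity)
  refine ⟨η / (4 * (‖R1‖ + ‖R2‖ + 1)), by positivity, fun s hs hsM hd => ?_⟩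
  obtain ⟨⟨h1, -⟩, hq, hqs, hsq⟩ := btr_facts hs
  set q := cfc (fun t : ℝ => 1 / (1 + t ^ 2)) s with hqd
  have hqM : q ∈ M := cfc_mem_M hsM _
  have hX1 : q * (s - a) ∈ M := mul_mem hqM (sub_mem hsM haM)
  have hqsM : q * s ∈ M := mul_mem hqM hsM
  have hX2 : q * s * (a - s) ∈ M := mul_mem hqsM (sub_mem haM hsM)
  have n1 : ‖q * (s - a)‖ ≤ ‖a‖ + 3 := by
    rw [mul_sub]
    refine (norm_sub_le _ _).trans ?_
    have := (norm_mul_le q a).trans (mul_le_of_le_one_left (norm_nonneg _) hq)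
    have : ‖q * s‖ ≤ 1 := hqs
    linarith
  have n2 : ‖q * s * (a - s)‖ ≤ ‖a‖ + 3 := by
    rw [mul_sub]
    refine (norm_sub_le _ _).trans ?_
    have e : q * s * s = 1 - q := by
      rw [eq_sub_iff_add_eq, mul_assoc, add_comm]
      conv_lhs => arg 1; rw [← mul_one q]
      rw [← mul_add, h1]
    have h3 := (norm_mul_le (q * s) a).trans (mul_le_of_le_one_left (norm_nonneg _) hqs)
    have h4 : ‖1 - q‖ ≤ 2 := (norm_sub_le _ _).trans (by
      linarith [(IsStarProjection.one (H →L[ℂ] H)).norm_le])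
    rw [e]
    linarith
  have hsa : ‖(a - s) Ω‖ = ‖(s - a) Ω‖ := by rw [← neg_sub s a, neg_apply, norm_neg]
  have m1 : ‖(q * (s - a)) Ω‖ ≤ η / (4 * (‖R1‖ + ‖R2‖ + 1)) :=
    (((q.le_opNorm _).trans (mul_le_of_le_one_left (norm_nonneg _) hq))).trans hd
  have m2 : ‖(q * s * (a - s)) Ω‖ ≤ η / (4 * (‖R1‖ + ‖R2‖ + 1)) :=
    ((((q * s).le_opNorm _).trans (mul_le_of_le_one_left (norm_nonneg _) hqs)).trans
      hsa.le).trans hd
  have key : ∀ {X R : H →L[ℂ] H} (ξ : H), X ∈ M → R ∈ Set.centralizer (M : Set (H →L[ℂ] H)) →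
      ‖X‖ ≤ ‖a‖ + 3 → ‖ξ - R Ω‖ ≤ η / (4 * (‖a‖ + 3)) →
      ‖X Ω‖ ≤ η / (4 * (‖R1‖ + ‖R2‖ + 1)) → ‖R‖ ≤ ‖R1‖ + ‖R2‖ + 1 → ‖X ξ‖ ≤ η / 2 := by
    intro X R ξ hX hR hXn hξ hXΩ hRn
    have e : X ξ = X (ξ - R Ω) + R (X Ω) := by
      rw [← commutant_comm hR hX, map_sub, sub_add_cancel]
    rw [e]
    refine (norm_add_le _ _).trans ?_
    have a1 : ‖X (ξ - R Ω)‖ ≤ η / 4 := by
      refine (X.le_opNorm _).trans ((mul_le_mul hXn hξ (norm_nonneg _)
        (by positivity)).trans (le_of_eq ?_))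
      field_simp
    have a2 : ‖R (X Ω)‖ ≤ η / 4 := by
      refine (R.le_opNorm _).trans ((mul_le_mul hRn hXΩ (norm_nonneg _)
        (by positivity)).trans (le_of_eq ?_))
      field_simp
    linarith
  have e : btr s - btr a = q * (s - a) * qa + q * s * (a - s) * btr a := by
    rw [← haq, show btr s = q * s from rfl]
    calc q * s - a * qa = q * s * ((1 + a * a) * qa) - q * (1 + s * s) * (a * qa) := by
          rw [hqa, h1, mul_one, one_mul]
      _ = _ := by simp only [mul_add, add_mul, mul_sub, sub_mul, mul_one, one_mul, mul_assoc]; abel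
  rw [e, add_apply]
  refine (norm_add_le _ _).trans ?_
  have b1 := key (qa Ω) hX1 hR1 n1 hd1.le m1 (by linarith [norm_nonneg R2])
  have b2 := key (btr a Ω) hX2 hR2 n2 hd2.le m2 (by linarith [norm_nonneg R1])
  simp only [mul_apply_eq_comp] at b1 b2 ⊢
  linarith

/-- **Bounded approximants.** An element generated by normalisers is a norm limit of elements
which are approximated at `Ω` by a bounded part of the closed span of the normalisers. -/
theorem exists_bounded_approx {n : H →L[ℂ] H} (hn : CN M A Ω n) (hns : IsSelfAdjoint n) {η : ℝ}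
    (hη : 0 < η) :
    ∃ z ∈ M, IsSelfAdjoint z ∧ ‖n - z‖ ≤ η ∧ ∃ C : ℝ, 0 ≤ C ∧ ∀ ε : ℝ, 0 < ε →
      ∃ s ∈ spanC M A, IsSelfAdjoint s ∧ ‖s‖ ≤ C ∧ ‖(z - s) Ω‖ ≤ ε := by
  have hA := h.masa
  set l : ℝ := min 1 (η / (‖n‖ ^ 3 + 1)) with hl
  have hl0 : 0 < l := lt_min one_pos (by positivity)
  set a := l • n with ha
  have has : IsSelfAdjoint a := (IsSelfAdjoint.all _).smul hns
  have haM : a ∈ M := by
    rw [ha, ← Complex.coe_smul]
    exact smul_mem_vna _ hn.1.1
  have hzM : l⁻¹ • btr a ∈ M := by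
    rw [← Complex.coe_smul]
    exact smul_mem_vna _ (mul_mem (cfc_mem_M haM _) haM)
  refine ⟨l⁻¹ • btr a, hzM, (IsSelfAdjoint.all _).smul (btr_sa has), ?_, l⁻¹, (inv_pos.2 hl0).le, fun ε hε => ?_⟩
  · have e : n - l⁻¹ • btr a = l⁻¹ • (a - btr a) := by
      rw [smul_sub, ha, smul_smul, inv_mul_cancel₀ hl0.ne', one_smul]
    rw [e, norm_smul, norm_sub_rev, Real.norm_eq_abs, abs_of_pos (inv_pos.2 hl0)]
    refine (mul_le_mul_of_nonneg_left (norm_btr_sub_le has) (inv_pos.2 hl0).le).trans ?_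
    rw [ha, norm_smul, Real.norm_eq_abs, abs_of_pos hl0, mul_pow, ← mul_assoc,
      show l⁻¹ * l ^ 3 = l * l by field_simp]
    have h1 : l ≤ η / (‖n‖ ^ 3 + 1) := min_le_right _ _
    have h2 : l ≤ 1 := min_le_left _ _
    have h3 : 0 ≤ ‖n‖ ^ 3 := by positivity
    rw [le_div_iff₀ (by positivity)] at h1
    nlinarith [mul_nonneg hl0.le h3]
  obtain ⟨δ, hδ, hδb⟩ := exists_eps_btr h has haM (show 0 < l * ε by positivity)
  obtain ⟨s, hs, hss, hsd⟩ := CN.exists_approx_sa h hn hns (show 0 < δ / l by positivity)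
  have hls : l • s ∈ spanC M A := (spanC M A).smul_of_tower_mem l hs
  have hsls : IsSelfAdjoint (l • s) := (IsSelfAdjoint.all _).smul hss
  obtain ⟨-, -, hb, -⟩ := btr_facts hsls
  refine ⟨l⁻¹ • btr (l • s), (spanC M A).smul_of_tower_mem _
    (spanC_mul hA (cfc_mem_spanC hA hls _) hls),
    (IsSelfAdjoint.all _).smul (btr_sa hsls), ?_, ?_⟩
  · rw [norm_smul, Real.norm_eq_abs, abs_of_pos (inv_pos.2 hl0)]
    exact mul_le_of_le_one_right (inv_pos.2 hl0).le hb
  · have hd : ‖(l • s - a) Ω‖ ≤ δ := by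
      rw [ha, ← smul_sub, smul_apply, norm_smul, Real.norm_eq_abs, abs_of_pos hl0,
        ← neg_sub n s, neg_apply, norm_neg]
      rw [lt_div_iff₀ hl0] at hsd
      linarith
    have h4 := hδb _ hsls (spanC_mem_M hls) hd
    rw [← smul_sub, smul_apply, norm_smul, Real.norm_eq_abs, abs_of_pos (inv_pos.2 hl0),
      ← neg_sub (btr (l • s)) (btr a), neg_apply, norm_neg, inv_mul_le_iff₀ hl0]
    exact h4

end Vale.Agent.P078.TypeIII.Seeded
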