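import Vale.Agent.P078.Mix.Decay
import Vale.Agent.P078.TypeIII.Singular.Decay

/-!
# Decay of words in translated atoms, without a trace

Every position of a word carries sites translated by normalisers. The split is made at the last
position sharing a variable with a later one, so that no rotation of the word is needed.
-/

set_option linter.unusedSectionVars false

namespace Vale.Agent.P078.TypeIII.Seeded

open ComplexInnerProductSpace
open Filter Topology
open Vale.Agent.P078 Vale.Agent.P078.General Vale.Agent.P078.Finite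
open scoped CStarAlgebra

universe u

variable {H : Type u} [NormedAddCommGroup H] [InnerProductSpace ℂ H] [CompleteSpace H]
variable {M : VonNeumannAlgebra H} {A : StarSubalgebra ℂ (H →L[ℂ] H)} {Ω : H}
variable {V : Type} [Fintype V] [DecidableEq V]

/-- A letter before a partition is chosen: a translated site or a fixed element. -/
abbrev Ltr (H : Type u) [NormedAddCommGroup H] [InnerProductSpace ℂ H] (V : Type) : Type u :=
  (V × (H →L[ℂ] H)) ⊕ (H →L[ℂ] H)

/-- Admissible letters. -/
def LGood (M : VonNeumannAlgebra H) (A : StarSubalgebra ℂ (H →L[ℂ] H)) : Ltr H V → Prop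
  | Sum.inl s => IsNormaliser M A s.2
  | Sum.inr y => y ∈ M

/-- The word of a list of letters at a partition. -/
noncomputable def ltoks (P : Part A) : List (Ltr H V) → List (Tok H V P.n)
  | [] => []
  | Sum.inl s :: L => usite P s.1 s.2 :: ltoks P L
  | Sum.inr y :: L => Tok.elt y :: ltoks P L

/-- The variables of a list of letters. -/
def lvars : List (Ltr H V) → List V
  | [] => []
  | Sum.inl s :: L => s.1 :: lvars L
  | Sum.inr _ :: L => lvars L

/-- The size of a list of letters. -/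
noncomputable def lsize : List (Ltr H V) → ℝ
  | [] => 1
  | Sum.inl _ :: L => lsize L
  | Sum.inr y :: L => ‖y‖ * lsize L

/-- The letters of a list of positions. -/
def posL : List (Posn H V) → List (Ltr H V)
  | [] => []
  | x :: L => x.1.map Sum.inl ++ Sum.inr x.2 :: posL L

lemma ltoks_append (P : Part A) : ∀ L L' : List (Ltr H V),
    ltoks P (L ++ L') = ltoks P L ++ ltoks P L'
  | [], L' => rfl
  | Sum.inl s :: L, L' => by simp [ltoks, ltoks_append P L L']
  | Sum.inr y :: L, L' => by simp [ltoks, ltoks_append P L L']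

lemma lvars_append : ∀ L L' : List (Ltr H V), lvars (L ++ L') = lvars L ++ lvars L'
  | [], L' => rfl
  | Sum.inl s :: L, L' => by simp [lvars, lvars_append L L']
  | Sum.inr y :: L, L' => by simp [lvars, lvars_append L L']

lemma ltoks_inl (P : Part A) : ∀ F : List (V × (H →L[ℂ] H)),
    ltoks P (F.map Sum.inl) = tokF P F
  | [] => rfl
  | s :: F => by
    have := ltoks_inl P F
    simp only [tokF, List.map_cons, ltoks] at this ⊢
    rw [this]

lemma lvars_inl : ∀ F : List (V × (H →L[ℂ] H)),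
    lvars (F.map (Sum.inl : _ → Ltr H V)) = F.map Prod.fst
  | [] => rfl
  | s :: F => by simp [lvars, lvars_inl F]

lemma ltoks_posL (P : Part A) : ∀ L : List (Posn H V), ltoks P (posL L) = toks P L
  | [] => rfl
  | x :: L => by simp [posL, toks, ltoks_append, ltoks, ltoks_inl, ltoks_posL P L]

lemma lvars_posL : ∀ L : List (Posn H V), lvars (posL L) = flatV L
  | [] => rfl
  | x :: L => by simp [posL, flatV, lvars_append, lvars, lvars_inl, lvars_posL L]

lemma good_posL : ∀ {L : List (Posn H V)}, (∀ x ∈ L, Posn.Good M A x) →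
    ∀ t ∈ posL L, LGood M A t
  | [], _, t, ht => by simp [posL] at ht
  | x :: L, hL, t, ht => by
    simp only [posL, List.mem_append, List.mem_map, List.mem_cons] at ht
    rcases ht with ⟨s, hs, rfl⟩ | rfl | ht
    exacts [(hL x (List.mem_cons_self ..)).1 s hs, (hL x (List.mem_cons_self ..)).2,
      good_posL (fun y hy => hL y (List.mem_cons_of_mem _ hy)) t ht]

lemma good_ltoks (hA : IsMASAIn M A) (P : Part A) : ∀ {L : List (Ltr H V)},
    (∀ t ∈ L, LGood M A t) → ∀ t ∈ ltoks P L, t.Good M A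
  | [], _, t, ht => by simp [ltoks] at ht
  | Sum.inl s :: L, hL, t, ht => by
    simp only [ltoks, List.mem_cons] at ht
    rcases ht with rfl | ht
    exacts [usite_good hA P s.1 (hL (Sum.inl s) (List.mem_cons_self ..)),
      good_ltoks hA P (fun y hy => hL y (List.mem_cons_of_mem _ hy)) t ht]
  | Sum.inr y :: L, hL, t, ht => by
    simp only [ltoks, List.mem_cons] at ht
    rcases ht with rfl | ht
    exacts [hL (Sum.inr y) (List.mem_cons_self ..),
      good_ltoks hA P (fun y hy => hL y (List.mem_cons_of_mem _ hy)) t ht]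

lemma mem_vars_ltoks (P : Part A) {v : V} : ∀ L : List (Ltr H V),
    v ∈ vars (ltoks P L) ↔ v ∈ lvars L
  | [] => by simp [ltoks, vars, lvars]
  | Sum.inl s :: L => by simp [ltoks, usite, vars, lvars, mem_vars_ltoks P L]
  | Sum.inr y :: L => by simp [ltoks, vars, lvars, mem_vars_ltoks P L]

lemma size_ltoks (P : Part A) : ∀ L : List (Ltr H V), size (ltoks P L) = lsize L
  | [] => rfl
  | Sum.inl s :: L => by simp [ltoks, usite, size, size_ltoks P L, lsize]
  | Sum.inr y :: L => by simp [ltoks, size, size_ltoks P L, lsize]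

/-- The split at the last position sharing a variable with a later one. -/
lemma exists_last_shared : ∀ {L : List (Posn H V)}, (∀ x ∈ L, (x.1.map Prod.fst).Nodup) →
    ¬ (flatV L).Nodup → ∃ pre x suf v, L = pre ++ x :: suf ∧ v ∈ x.1.map Prod.fst ∧
      v ∈ flatV suf ∧ (flatV suf).Nodup
  | [], _, hn => absurd List.nodup_nil hn
  | x :: L, hx, hn => by
    by_cases hL : (flatV L).Nodup
    · by_contra hc
      push Not at hc
      refine hn ?_
      simp only [flatV, List.flatMap_cons]
      exact List.nodup_append.2 ⟨hx x (List.mem_cons_self ..), hL,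
        fun a ha b hb e => hc [] x L a rfl ha (e ▸ hb) hL⟩
    · obtain ⟨pre, y, suf, v, rfl, h1⟩ := exists_last_shared
        (fun z hz => hx z (List.mem_cons_of_mem _ hz)) hL
      exact ⟨x :: pre, y, suf, v, rfl, h1⟩

variable (h : CentSetting M A Ω)
include h

/-- **Uniform smallness along a word.** -/
theorem exists_eps_ltoks : ∀ {L : List (Ltr H V)}, (∀ t ∈ L, LGood M A t) → (lvars L).Nodup →
    ∀ {C η : ℝ}, 0 ≤ C → 0 < η →
      ∃ ε, 0 < ε ∧ ∀ (P : Part A) (base : V → Fin P.n) (ι : Type) (_ : Fintype ι)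
        (T : ι → (H →L[ℂ] H)), (∀ i, T i ∈ M) →
        (∀ v, ∑ i, ‖T i v‖ ^ 2 ≤ C ^ 2 * ‖v‖ ^ 2) → ∑ i, ‖T i Ω‖ ^ 2 ≤ ε →
          ∑ i, ∑ g ∈ Env (vars (ltoks P L)) base, ‖T i (eval g (ltoks P L) Ω)‖ ^ 2 ≤ η
  | [], _, _, C, η, _, hη => ⟨η, hη, fun P base ι _ T _ _ hs => by
      simpa [ltoks, vars, Env_empty] using hs⟩
  | Sum.inr y :: L, hL, hnd, C, η, hC, hη => by
    have hy : y ∈ M := hL (Sum.inr y) (List.mem_cons_self ..)
    obtain ⟨ε', hε', ih⟩ := exists_eps_ltoks (L := L)
      (fun t ht => hL t (List.mem_cons_of_mem _ ht)) (by simpa [lvars] using hnd)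
      (C := C * ‖y‖) (η := η) (by positivity) hη
    obtain ⟨ε, hε, hfam⟩ := exists_eps_family h (y Ω) hC hε'
    refine ⟨ε, hε, fun P base ι _ T hT hbd hs => ?_⟩
    have key := ih P base ι inferInstance (fun i => T i * y) (fun i => mul_mem (hT i) hy)
      (fun v => ?_) (hfam ι inferInstance T hT hbd hs)
    · simpa [ltoks, vars, eval_cons, Tok.val] using key
    · refine (hbd (y v)).trans ?_
      rw [mul_pow, mul_assoc, ← mul_pow ‖y‖]
      exact mul_le_mul_of_nonneg_left (pow_le_pow_left₀ (norm_nonneg _) (y.le_opNorm _) 2)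
        (sq_nonneg _)
  | Sum.inl ⟨w, u⟩ :: L, hL, hnd, C, η, hC, hη => by
    have hA := h.masa
    have hu : IsNormaliser M A u := hL (Sum.inl (w, u)) (List.mem_cons_self ..)
    rw [lvars, List.nodup_cons] at hnd
    obtain ⟨ε', hε', ih⟩ := exists_eps_ltoks (L := L)
      (fun t ht => hL t (List.mem_cons_of_mem _ ht)) hnd.2 (C := C) (η := η) hC hη
    refine ⟨ε', hε', fun P base ι _ T hT hbd hs => ?_⟩
    have hw : w ∉ vars (ltoks P L) := fun hc => hnd.1 ((mem_vars_ltoks P L).1 hc)
    obtain ⟨hp, ho⟩ := usite_good hA P w hu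
    have key := ih P base (ι × Fin P.n) inferInstance
      (fun q => T q.1 * (u * P.e q.2 * star u))
      (fun q => mul_mem (hT q.1) (hA.mem_M (hp q.2).1)) (fun v => ?_) ?_
    · refine le_trans (le_of_eq ?_) key
      rw [Fintype.sum_prod_type]
      refine Finset.sum_congr rfl (fun i _ => ?_)
      simp only [ltoks, usite, vars]
      rw [sum_Env_insert hw]
      refine Finset.sum_congr rfl (fun a _ => ?_)
      refine (Finset.sum_congr rfl (fun g hg => ?_)).trans
        (sum_Env_congr (D := vars (ltoks P L))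
          (f := fun g => ‖(T i * (u * P.e a * star u)) (eval g (ltoks P L) Ω)‖ ^ 2)
          (fun k k' hk => by rw [eval_congr (L := ltoks P L) (g := k) (g' := k') hk])
          (fun v hv hv' => absurd hv hv'))
      have hga : g w = a := by rw [mem_Env.1 hg w hw, Function.update_self]
      simp [eval_cons, Tok.val, hga]
    · rw [Fintype.sum_prod_type, Finset.sum_comm]
      refine (Finset.sum_le_sum (fun a _ => hbd ((u * P.e a * star u) v))).trans ?_
      rw [← Finset.mul_sum]
      exact mul_le_mul_of_nonneg_left (sum_proj_le (fun a => (hp a).2) ho v) (sq_nonneg _)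
    · rw [Fintype.sum_prod_type]
      exact (Finset.sum_le_sum (fun i _ => norm_sq_sum_right_le h Finset.univ
        (fun a => u * P.e a * star u) (fun a => (hp a).1) (fun a => (hp a).2) ho (hT i))).trans hs

/-- Two adjacent sites of one variable. -/
lemma msum_adjacent_small {v : V} {wl wr x : H →L[ℂ] H} {L : List (Ltr H V)}
    (hl : IsNormaliser M A wl) (hr : IsNormaliser M A wr) (hx : x ∈ M) (hxN : OrthN M A Ω x)
    (hL : ∀ t ∈ L, LGood M A t) (hnd : (lvars L).Nodup) (hv : v ∉ lvars L)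
    {η : ℝ} (hη : 0 < η) :
    ∃ P0 : Part A, ∀ P, P0 ≤ P → ∀ base : V → Fin P.n,
      msum Ω (usite P v wl :: Tok.elt x :: usite P v wr :: ltoks P L) base ≤ η := by
  have hA := h.masa
  set X := star wl * x * wr with hX
  have hXM : X ∈ M := mul_mem (mul_mem (star_mem hl.mem) hx) hr.mem
  obtain ⟨ε, hε, hfam⟩ := exists_eps_ltoks h hL hnd (C := ‖X‖) (norm_nonneg _) hη
  obtain ⟨ε', hε', hfam'⟩ := exists_eps_family h (star wr Ω) (norm_nonneg X) hε
  obtain ⟨P0, hP0⟩ := tendsto_pinch h hXM (Real.sqrt_pos.2 hε')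
  refine ⟨P0, fun P hP base => ?_⟩
  have hv' : v ∉ vars (ltoks P L) := fun hc => hv ((mem_vars_ltoks P L).1 hc)
  set T := fun a => wl * (P.e a * X * P.e a) * star wr with hT
  have hin : ∀ a, P.e a * X * P.e a ∈ M := fun a =>
    mul_mem (mul_mem (hA.mem_M (P.mem a)) hXM) (hA.mem_M (P.mem a))
  have hle : ∀ a u, ‖T a u‖ ≤ ‖(P.e a * X * P.e a) (star wr u)‖ := fun a u =>
    (wl.le_opNorm _).trans (mul_le_of_le_one_left (norm_nonneg _) hl.norm_le)
  have hsq : ∀ (ξ : H), ∑ a, ‖(P.e a * X * P.e a) ξ‖ ^ 2 ≤ ‖X‖ ^ 2 * ‖ξ‖ ^ 2 := fun ξ => by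
    calc ∑ a, ‖(P.e a * X * P.e a) ξ‖ ^ 2 ≤ ∑ a, ‖X‖ ^ 2 * ‖P.e a ξ‖ ^ 2 :=
          Finset.sum_le_sum (fun a _ => by
            rw [← mul_pow]
            exact pow_le_pow_left₀ (norm_nonneg _)
              ((proj_norm_le (P.proj a) _).trans (X.le_opNorm _)) 2)
      _ = _ := by rw [← Finset.mul_sum, P.norm_sq_sum]
  have key := hfam P base (Fin P.n) inferInstance T
    (fun a => mul_mem (mul_mem hl.mem (hin a)) (star_mem hr.mem)) (fun u => ?_) ?_
  · refine le_trans (le_of_eq ?_) key
    simp only [msum, usite, vars, Finset.insert_idem]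
    rw [sum_Env_insert hv']
    refine Finset.sum_congr rfl (fun a _ => ?_)
    refine (Finset.sum_congr rfl (fun g hg => ?_)).trans
      (sum_Env_congr (D := vars (ltoks P L))
        (f := fun g => ‖T a (eval g (ltoks P L) Ω)‖ ^ 2)
        (fun k k' hk => by rw [eval_congr (L := ltoks P L) (g := k) (g' := k') hk])
        (fun w hw hw' => absurd hw hw'))
    have hga : g v = a := by rw [mem_Env.1 hg v hv', Function.update_self]
    simp [eval_cons, Tok.val, hga, hT, hX]
  · refine ((Finset.sum_le_sum (fun a _ => pow_le_pow_left₀ (norm_nonneg _) (hle a u) 2)).trans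
      (hsq _)).trans ?_
    refine mul_le_mul_of_nonneg_left (pow_le_pow_left₀ (norm_nonneg _) ?_ 2) (sq_nonneg _)
    refine ((star wr).le_opNorm _).trans (mul_le_of_le_one_left (norm_nonneg _) ?_)
    rw [norm_star]
    exact hr.norm_le
  · refine (Finset.sum_le_sum (fun a _ => pow_le_pow_left₀ (norm_nonneg _) (hle a Ω) 2)).trans ?_
    refine hfam' (Fin P.n) inferInstance _ hin hsq ?_
    have h1 := hP0 P hP
    rw [plim_eq_zero_of_orthN_conj h hx hxN hl hr, sub_zero] at h1
    refine le_trans (le_of_eq ?_)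
      ((pow_le_pow_left₀ (norm_nonneg _) h1 2).trans (Real.sq_sqrt hε'.le).le)
    simp only [Part.pinch, _root_.sum_apply, mul_apply_eq_comp]
    rw [norm_sq_sum_left Finset.univ P.e P.proj P.orth (fun a => X (P.e a Ω))]

/-- Two sites of one variable around a site of a second one. -/
lemma msum_separated_small {v b : V} {wl wm x : H →L[ℂ] H} {L : List (Ltr H V)}
    (hl : IsNormaliser M A wl) (hm : IsNormaliser M A wm) (hx : x ∈ M) (hxN : OrthN M A Ω x)
    (hL : ∀ t ∈ L, LGood M A t) (hnd : (lvars L).Nodup) (hv : v ∈ lvars L) (hb : b ∉ lvars L)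
    {η : ℝ} (hη : 0 < η) :
    ∃ P0 : Part A, ∀ P, P0 ≤ P → ∀ base : V → Fin P.n,
      msum Ω (usite P v wl :: Tok.elt x :: usite P b wm :: ltoks P L) base ≤ η := by
  have hA := h.masa
  set y := star wl * x * wm with hy
  have hyM : y ∈ M := mul_mem (mul_mem (star_mem hl.mem) hx) hm.mem
  have hyN : OrthN M A Ω y := orthN_mul_right h (cn_normaliser hm).1
    (mul_mem (star_mem hl.mem) hx) (orthN_mul_left_normaliser h hl.adjoint hx hxN)
  set L' : List (Ltr H V) := Sum.inr (star wm) :: L with hL'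
  have hL'g : ∀ t ∈ L', LGood M A t := by
    intro t ht
    rcases List.mem_cons.1 ht with rfl | ht
    exacts [star_mem hm.mem, hL t ht]
  set K := (lsize L' * ‖Ω‖) ^ 2 with hK
  obtain ⟨ε, hε, hfam⟩ := exists_eps_ltoks h hL'g (by simpa [hL', lvars] using hnd)
    (C := ‖y‖ ^ 2) (η := η ^ 2 / (K + 1)) (sq_nonneg _) (by positivity)
  obtain ⟨P1, hP1⟩ := exists_qval_le h hyM hyN (η := ε / 4) (by positivity)
  set Y := fun I => star y * P1.e I * y with hY
  have hYM : ∀ I, Y I ∈ M := fun I =>
    mul_mem (mul_mem (star_mem hyM) (hA.mem_M (P1.mem I))) hyM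
  choose Q hQ using fun I => tendsto_pinch h (hYM I)
    (show 0 < Real.sqrt (ε / (4 * ((P1.n : ℝ) + 1))) by positivity)
  have := hA.directed
  obtain ⟨R, hR⟩ := Finite.exists_le Q
  obtain ⟨P0, hP0a, hP0b⟩ := hA.exists_join R P1
  refine ⟨P0, fun P hP base => ?_⟩
  have hTM : ∀ I, P.pinch (Y I) ∈ M := fun I => pinch_mem hA (hYM I) P
  have hsmall : ∑ I, ‖P.pinch (Y I) Ω‖ ^ 2 ≤ ε := by
    have hI : ∀ I, ‖P.pinch (Y I) Ω‖ ^ 2
        ≤ 2 * ‖plim hA (Y I) Ω‖ ^ 2 + 2 * (ε / (4 * ((P1.n : ℝ) + 1))) := fun I => by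
      have h1 := pow_le_pow_left₀ (norm_nonneg _) (hQ I P (((hR I).trans hP0a).trans hP)) 2
      rw [Real.sq_sqrt (by positivity), sub_apply] at h1
      have h2 := norm_add_le (P.pinch (Y I) Ω - plim hA (Y I) Ω) (plim hA (Y I) Ω)
      rw [sub_add_cancel] at h2
      nlinarith [norm_nonneg (P.pinch (Y I) Ω), norm_nonneg (P.pinch (Y I) Ω - plim hA (Y I) Ω),
        norm_nonneg (plim hA (Y I) Ω), sq_nonneg (‖P.pinch (Y I) Ω - plim hA (Y I) Ω‖
          - ‖plim hA (Y I) Ω‖)]
    refine (Finset.sum_le_sum (fun I _ => hI I)).trans ?_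
    rw [Finset.sum_add_distrib, ← Finset.mul_sum, Finset.sum_const, Finset.card_univ,
      Fintype.card_fin, nsmul_eq_mul]
    have h2 : (P1.n : ℝ) * (2 * (ε / (4 * ((P1.n : ℝ) + 1)))) ≤ ε / 2 := by
      have hn : (0 : ℝ) ≤ P1.n := Nat.cast_nonneg _
      rw [mul_div_assoc', mul_div_assoc', div_le_iff₀ (by positivity)]
      nlinarith
    have h3 : ∑ I, ‖plim hA (Y I) Ω‖ ^ 2 ≤ ε / 4 := hP1
    linarith
  have key := hfam P base (Fin P1.n) inferInstance (fun I => P.pinch (Y I)) hTM
    (fun u => Singular.sum_pinch_sandwich_le P P1 y u) hsmall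
  choose π hπ using hP0b.trans hP
  have hb' : b ∉ vars (ltoks P L) := fun hc => hb ((mem_vars_ltoks P L).1 hc)
  have hv' : v ∈ vars (ltoks P L) := (mem_vars_ltoks P L).2 hv
  have hW : vars (ltoks P L') = vars (ltoks P L) := by simp [hL', ltoks, vars]
  rw [hW] at key
  set D := Env (vars (ltoks P L)) base with hD
  set ξ := fun k => eval k (ltoks P L') Ω with hξ
  have hb1 : ∑ k ∈ D, ‖ξ k‖ ^ 2 ≤ K := by
    have := word_bound (good_ltoks hA P hL'g) (O := vars (ltoks P L)) (by rw [hW]) base Ω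
    rw [hW] at this
    simp only [Finset.sdiff_self, Env_empty, Finset.sum_singleton, size_ltoks] at this
    rw [hK, mul_pow]
    exact this
  have hexp : msum Ω (usite P v wl :: Tok.elt x :: usite P b wm :: ltoks P L) base
      ≤ ∑ k ∈ D, ∑ c, ‖(P1.e (π (k v)) * y * P.e c) (ξ k)‖ ^ 2 := by
    have hvars : vars (usite P v wl :: Tok.elt x :: usite P b wm :: ltoks P L)
        = insert b (vars (ltoks P L)) := by
      simp only [usite, vars]
      exact Finset.insert_eq_of_mem (Finset.mem_insert_of_mem hv')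
    rw [msum, hvars, sum_Env_insert hb', Finset.sum_comm (s := D)]
    refine Finset.sum_le_sum (fun c _ => ?_)
    refine le_trans (Finset.sum_le_sum (g := fun k => ‖(P1.e (π (k v)) * y * P.e c) (ξ k)‖ ^ 2)
      (fun k hk => ?_)) (le_of_eq (sum_Env_congr (D := vars (ltoks P L))
        (fun k k' hkk => ?_) (fun w hw hw' => absurd hw hw')))
    · have hc : k b = c := by rw [mem_Env.1 hk b hb', Function.update_self]
      refine pow_le_pow_left₀ (norm_nonneg _) ?_ 2
      simp only [hξ, hL', hy, ltoks, usite, eval_cons, Tok.val, hc, mul_apply_eq_comp]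
      refine ((wl.le_opNorm _).trans (mul_le_of_le_one_left (norm_nonneg _) hl.norm_le)).trans ?_
      conv_lhs => rw [← hπ (k v), hA.comm (P1.mem _) (P.mem _), mul_apply_eq_comp]
      exact proj_norm_le (P.proj _) _
    · simp only [hξ, hkk v hv']
      rw [eval_congr (L := ltoks P L') (g := k) (g' := k')
        (fun w hw => hkk w (by rwa [hW] at hw))]
  have hb2 : ∑ k ∈ D, ‖P.pinch (Y (π (k v))) (ξ k)‖ ^ 2 ≤ η ^ 2 / (K + 1) := by
    refine le_trans ?_ key
    rw [Finset.sum_comm]
    exact Finset.sum_le_sum (fun k _ => Finset.single_le_sum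
      (f := fun I => ‖P.pinch (Y I) (ξ k)‖ ^ 2) (fun I _ => sq_nonneg _) (Finset.mem_univ _))
  refine hexp.trans ((Finset.sum_le_sum (fun k _ =>
    Singular.sum_middle_le P (P1.proj _) (ξ k))).trans ?_)
  refine (Real.sum_mul_le_sqrt_mul_sqrt _ _ _).trans ?_
  refine (mul_le_mul (Real.sqrt_le_sqrt hb1) (Real.sqrt_le_sqrt hb2) (Real.sqrt_nonneg _)
    (Real.sqrt_nonneg _)).trans ?_
  rw [← Real.sqrt_mul (sq_nonneg _), Real.sqrt_le_left hη.le, mul_div_assoc',
    div_le_iff₀ (by positivity)]
  nlinarith [sq_nonneg η]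

/-- A position sharing a variable with what follows it. -/
lemma exists_head_small {x : Posn H V} {suf : List (Posn H V)} {v : V} (hx : Posn.Good M A x)
    (hxN : OrthN M A Ω x.2) (hsuf : ∀ y ∈ suf, Posn.Good M A y) (hpos : ∀ y ∈ suf, y.1 ≠ [])
    (hvx : v ∈ x.1.map Prod.fst) (hvs : v ∈ flatV suf) (hnd : (flatV suf).Nodup) {δ : ℝ}
    (hδ : 0 < δ) :
    ∃ P0 : Part A, ∀ P, P0 ≤ P → ∀ base : V → Fin P.n,
      msum Ω (toks P (x :: suf)) base ≤ δ := by
  classical
  have hA := h.masa
  obtain ⟨wl, hs₀⟩ : ∃ w, (v, w) ∈ x.1 := by simpa [List.mem_map] using hvx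
  obtain ⟨xs1, xs2, hxs⟩ := List.append_of_mem hs₀
  set rx := xs1 ++ xs2 with hrx
  have hpx : x.1.Perm (rx ++ [(v, wl)]) := by
    rw [hxs]; exact (List.perm_middle).trans (List.perm_append_singleton (v, wl) rx).symm
  have hrxN : ∀ s ∈ rx, IsNormaliser M A s.2 := fun s hs => hx.1 s
    (hpx.mem_iff.2 (List.mem_append_left _ hs))
  obtain ⟨y, suf', rfl⟩ := List.exists_cons_of_ne_nil
    (show suf ≠ [] from fun e => by simp [e, flatV] at hvs)
  obtain ⟨q, wq, rb, hyq, hqv⟩ : ∃ q wq rb, y.1.Perm ((q, wq) :: rb) ∧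
      (q = v ∨ (q ≠ v ∧ v ∉ y.1.map Prod.fst)) := by
    by_cases hvy : v ∈ y.1.map Prod.fst
    · obtain ⟨w, hw⟩ : ∃ w, (v, w) ∈ y.1 := by simpa [List.mem_map] using hvy
      obtain ⟨a, b, hab⟩ := List.append_of_mem hw
      exact ⟨v, w, a ++ b, by rw [hab]; exact List.perm_middle, Or.inl rfl⟩
    · obtain ⟨⟨q, w⟩, rb, e⟩ := List.exists_cons_of_ne_nil (hpos y (List.mem_cons_self ..))
      refine ⟨q, w, rb, by rw [e], Or.inr ⟨fun e' => hvy ?_, hvy⟩⟩
      rw [e, ← e']
      exact List.mem_cons_self ..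
  set L : List (Ltr H V) := rb.map Sum.inl ++ Sum.inr y.2 :: posL suf' with hL
  have hyg := hsuf y (List.mem_cons_self ..)
  have hq : IsNormaliser M A wq := hyg.1 _ (hyq.mem_iff.2 (List.mem_cons_self ..))
  have hLg : ∀ t ∈ L, LGood M A t := by
    intro t ht
    simp only [hL, List.mem_append, List.mem_map, List.mem_cons] at ht
    rcases ht with ⟨s, hs, rfl⟩ | rfl | ht
    exacts [hyg.1 s (hyq.mem_iff.2 (List.mem_cons_of_mem _ hs)), hyg.2,
      good_posL (fun z hz => hsuf z (List.mem_cons_of_mem _ hz)) t ht]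
  have hLv : lvars L = rb.map Prod.fst ++ flatV suf' := by
    simp [hL, lvars_append, lvars, lvars_inl, lvars_posL]
  have hflat : (flatV (y :: suf')).Perm (q :: lvars L) := by
    rw [hLv]
    simp only [flatV, List.flatMap_cons]
    exact List.Perm.append_right _ (hyq.map Prod.fst)
  rw [hflat.nodup_iff, List.nodup_cons] at hnd
  obtain ⟨P0, hP0⟩ : ∃ P0 : Part A, ∀ P, P0 ≤ P → ∀ base : V → Fin P.n,
      msum Ω (usite P v wl :: Tok.elt x.2 :: usite P q wq :: ltoks P L) base ≤ δ := by
    rcases hqv with rfl | ⟨hne, -⟩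
    · exact msum_adjacent_small h (hx.1 _ hs₀) hq hx.2 hxN hLg hnd.2 hnd.1 hδ
    · refine msum_separated_small h (hx.1 _ hs₀) hq hx.2 hxN hLg hnd.2 ?_ hnd.1 hδ
      have := hflat.mem_iff.1 hvs
      rcases List.mem_cons.1 this with e | e
      exacts [absurd e.symm hne, e]
  refine ⟨P0, fun P hP base => ?_⟩
  have e : msum Ω (toks P (x :: y :: suf')) base = msum Ω (tokF P rx ++
      usite P v wl :: Tok.elt x.2 :: usite P q wq :: ltoks P L) base := by
    have ev : vars (toks P (x :: y :: suf')) = vars (tokF P rx ++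
        usite P v wl :: Tok.elt x.2 :: usite P q wq :: ltoks P L) := by
      ext w
      simp only [toks, vars_append, vars, usite, Finset.mem_union, Finset.mem_insert,
        mem_vars_tokF, mem_vars_toks, mem_vars_ltoks, hLv, (hpx.map Prod.fst).mem_iff,
        (hyq.map Prod.fst).mem_iff, List.map_append, List.map_cons, List.map_nil,
        List.mem_append, List.mem_cons, List.not_mem_nil]
      tauto
    unfold msum
    rw [ev]
    refine Finset.sum_congr rfl (fun g _ => ?_)
    simp only [hL, toks, ltoks_append, ltoks, ltoks_inl, ltoks_posL, eval_append, eval_cons]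
    rw [eval_tokF_perm hA P g hpx hx.1, eval_tokF_perm hA P g hyq hyg.1]
    simp only [tokF, List.map_append, List.map_cons, List.map_nil, eval_append, eval_cons,
      eval_nil, mul_one, mul_assoc]
  rw [e]
  exact (msum_sites_left (good_tokF hA P hrxN) (tokF_ne_elt P rx) base).trans (hP0 P hP base)

/-- **Decay.** A word in which each variable is repeated, no position repeats a variable and the
inner elements are orthogonal to the normalisers tends to zero against every vector of `MΩ`. -/
theorem exists_word_small {L : List (Posn H V)} (hne : L ≠ []) (hgood : ∀ x ∈ L, Posn.Good M A x)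
    (hpos : ∀ x ∈ L, x.1 ≠ []) (hN : ∀ x ∈ L.dropLast, OrthN M A Ω x.2)
    (hnd : ∀ x ∈ L, (x.1.map Prod.fst).Nodup) (hcount : ∀ v, 2 ≤ (flatV L).count v)
    {z0 : H →L[ℂ] H} (hz0 : z0 ∈ M) {η : ℝ} (hη : 0 < η) :
    ∃ P0 : Part A, ∀ P, P0 ≤ P →
      ‖∑ g : V → Fin P.n, ⟪z0 Ω, eval g (toks P L) Ω⟫‖ ≤ η := by
  classical
  have hA := h.masa
  have hnot : ¬ (flatV L).Nodup := by
    intro hn
    obtain ⟨x, L', rfl⟩ := List.exists_cons_of_ne_nil hne
    obtain ⟨v, hv⟩ := List.exists_mem_of_ne_nil _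
      (by simpa using hpos x (List.mem_cons_self ..) : x.1.map Prod.fst ≠ [])
    have := List.nodup_iff_count_le_one.1 hn v
    have := hcount v
    omega
  obtain ⟨pre, x, suf, v, hL, hvx, hvs, hsnd⟩ := exists_last_shared hnd hnot
  have hmemL : ∀ y ∈ x :: suf, y ∈ L := fun y hy => by
    rw [hL]; exact List.mem_append_right _ hy
  have hx := hgood x (hmemL _ (List.mem_cons_self ..))
  have hsne : suf ≠ [] := fun e => by simp [e, flatV] at hvs
  have hxN : OrthN M A Ω x.2 := hN x (by
    rw [hL, List.dropLast_append_of_ne_nil (by simp), List.dropLast_cons_of_ne_nil hsne]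
    simp)
  set K := ‖z0‖ * wsize pre * ‖Ω‖ with hK
  set δ := (η / (|K| + 1)) ^ 2 with hδ
  have hδ0 : 0 < δ := by positivity
  obtain ⟨P0, hP0⟩ := exists_head_small h hx hxN
    (fun y hy => hgood y (hmemL y (List.mem_cons_of_mem _ hy)))
    (fun y hy => hpos y (hmemL y (List.mem_cons_of_mem _ hy))) hvx hvs hsnd hδ0
  refine ⟨P0, fun P hP => ?_⟩
  by_cases hb : Nonempty (V → Fin P.n)
  swap
  · rw [not_nonempty_iff] at hb
    rw [Finset.univ_eq_empty, Finset.sum_empty, norm_zero]
    exact hη.le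
  obtain ⟨base⟩ := hb
  set S := toks P (x :: suf) with hS
  have hpreg := good_toks hA P (L := pre) (fun y hy => hgood y (by
    rw [hL]; exact List.mem_append_left _ hy))
  set R : List (Tok H V P.n) := rev (toks P pre) ++ [Tok.elt z0] with hR
  have hRg : ∀ t ∈ R, t.Good M A := by
    intro t ht
    simp only [hR, List.mem_append, List.mem_singleton] at ht
    rcases ht with ht | rfl
    exacts [good_rev hpreg t ht, hz0]
  have hmemR : ∀ w, w ∈ vars R ↔ w ∈ flatV pre := fun w => by
    simp [hR, vars_append, vars_rev, vars, mem_vars_toks]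
  have hmemS : ∀ w, w ∈ vars S ↔ w ∈ flatV (x :: suf) := fun w => mem_vars_toks P _
  have hflat : ∀ w, (flatV L).count w
      = (flatV pre).count w + ((x.1.map Prod.fst).count w + (flatV suf).count w) := fun w => by
    simp only [hL, flatV, List.flatMap_append, List.flatMap_cons, List.count_append]
  have hcov : ∀ w, w ∈ vars R ∨ w ∈ vars S := by
    intro w
    rw [hmemR, hmemS]
    by_contra hc
    simp only [flatV, List.flatMap_cons, List.mem_append, not_or] at hc
    obtain ⟨c1, c2, c3⟩ := hc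
    have := hcount w
    rw [hflat] at this
    simp only [flatV, List.count_eq_zero.2 c1, List.count_eq_zero.2 c2,
      List.count_eq_zero.2 c3] at this
    omega
  have hIS : vars S \ vars R ⊆ vars (tokF P x.1) := by
    intro w hw
    rw [Finset.mem_sdiff, hmemR, hmemS] at hw
    rw [mem_vars_tokF]
    by_contra hc
    have h2 := hcount w
    rw [hflat, List.count_eq_zero.2 hw.2, List.count_eq_zero.2 hc] at h2
    have h3 := List.nodup_iff_count_le_one.1 hsnd w
    omega
  have horth : ∀ g : V → Fin P.n, ‖∑ k ∈ Env (vars S \ vars R) g, eval k S Ω‖ ^ 2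
      = ∑ k ∈ Env (vars S \ vars R) g, ‖eval k S Ω‖ ^ 2 := fun g => by
    rw [hS, toks] at hIS ⊢
    exact sum_orth_left hA (good_tokF hA P hx.1) (tokF_ne_elt P x.1) hIS g Ω
  have hcs := Singular.norm_sum_inner_le' (Ω := Ω) hRg hcov horth base
  have heq : ∀ g : V → Fin P.n,
      ⟪z0 Ω, eval g (toks P L) Ω⟫ = ⟪eval g R Ω, eval g S Ω⟫ := by
    intro g
    simp only [hL, hR, hS, toks_append, eval_append, eval_rev g hpreg, eval_cons, eval_nil,
      Tok.val, mul_one, mul_apply_eq_comp]
    rw [ContinuousLinearMap.star_eq_adjoint, ContinuousLinearMap.adjoint_inner_left]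
  simp only [heq]
  refine hcs.trans ?_
  rw [show size R * ‖Ω‖ = K by
    simp only [hR, hK, size_append, size_rev, size, size_toks, mul_one]; ring]
  have h1 := Real.sqrt_le_sqrt (hP0 P hP base)
  rw [hδ, Real.sqrt_sq (by positivity)] at h1
  refine (mul_le_mul (le_abs_self K) h1 (Real.sqrt_nonneg _) (abs_nonneg _)).trans ?_
  rw [mul_div_assoc', div_le_iff₀ (by positivity)]
  nlinarith [abs_nonneg K]

end Vale.Agent.P078.TypeIII.Seeded
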