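import Vale.Agent.P078.Sharp.Mix.Letters
import Vale.Agent.P078.TypeIII.Seeded.Decay

/-!
# Random colourings annihilate alternating coloured words, without a trace
-/

set_option linter.unusedSectionVars false

namespace Vale.Agent.P078.TypeIII.Seeded

open ComplexInnerProductSpace
open Filter Topology
open Vale.Agent.P078 Vale.Agent.P078.General Vale.Agent.P078.Finite Vale.Agent.P078.Sharp
open scoped CStarAlgebra

universe u

variable {H : Type u} [NormedAddCommGroup H] [InnerProductSpace ℂ H] [CompleteSpace H]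
variable {M : VonNeumannAlgebra H} {A : StarSubalgebra ℂ (H →L[ℂ] H)} {Ω : H}
variable {V : Type} [Fintype V] [DecidableEq V]

variable (h : CentSetting M A Ω)
include h

/-- The sum over valuations with a given kernel tends to zero. -/
lemma tendsto_exact {L : List (Posn H V)} (hne : L ≠ []) (hgood : ∀ x ∈ L, Posn.Good M A x)
    (hpos : ∀ x ∈ L, x.1 ≠ []) (hN : ∀ x ∈ L.dropLast, OrthN M A Ω x.2)
    (hnd : (flatV L).Nodup) (hall : ∀ v, v ∈ flatV L) {z0 : H →L[ℂ] H} (hz0 : z0 ∈ M)
    (hsep : ∀ x ∈ L, ∀ s ∈ x.1, ∀ t ∈ x.1, s.1 ≠ t.1 → ∀ᶠ P in (uf h.masa : Filter (Part A)),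
      ∀ i, (s.2 * P.e i * star s.2) * (t.2 * P.e i * star t.2) * x.2 = 0) :
    ∀ (K : Finset (V × V)), (∀ i, ∃ j, j ≠ i ∧ (i, j) ∈ K) →
      Tendsto (fun P : Part A => ‖kerSum K (fun g : V → Fin P.n => ⟪z0 Ω, eval g (toks P L) Ω⟫)‖)
        (uf h.masa) (𝓝 0) := by
  classical
  intro K
  induction hm : (Finset.univ \ K).card using Nat.strong_induction_on generalizing K with
  | _ m ih =>
  intro hK
  have hA := h.masa
  by_cases hreal : ∃ g : V → V, kerSet g = K ∧ ∀ i, g (g i) = g i
  swap
  · have hz : ∀ P : Part A,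
        kerSum K (fun g : V → Fin P.n => ⟪z0 Ω, eval g (toks P L) Ω⟫) = 0 := by
      intro P
      refine Finset.sum_eq_zero (fun val hval => absurd ?_ hreal)
      rcases isEmpty_or_nonempty V with hV | hV
      · exact ⟨id, by ext p; exact isEmptyElim p.1, fun i => isEmptyElim i⟩
      have hinv : ∀ i, val (Function.invFun val (val i)) = val i :=
        fun i => Function.invFun_eq ⟨i, rfl⟩
      refine ⟨fun i => Function.invFun val (val i), ?_, fun i => by simp only [hinv i]⟩
      rw [← (Finset.mem_filter.1 hval).2]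
      ext p
      simp only [mem_kerSet]
      exact ⟨fun e => by rw [← hinv p.1, e, hinv p.2], fun e => by rw [e]⟩
    simp only [hz, norm_zero]
    exact tendsto_const_nhds
  obtain ⟨g, hgK, hgg⟩ := hreal
  have hKg : ∀ i j, (i, j) ∈ K ↔ g i = g j := fun i j => by rw [← hgK]; exact mem_kerSet
  by_cases htwice : ∃ x ∈ L, ∃ s ∈ x.1, ∃ t ∈ x.1, s.1 ≠ t.1 ∧ g s.1 = g t.1
  · obtain ⟨x, hx, s, hs, t, ht, hst, hgst⟩ := htwice
    refine tendsto_const_nhds.congr' ?_
    filter_upwards [hsep x hx s hs t ht hst] with P hP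
    rw [eq_comm, norm_eq_zero]
    refine Finset.sum_eq_zero (fun val hval => ?_)
    have hv : val s.1 = val t.1 := by
      have e := (hKg s.1 t.1).2 hgst
      rw [← (Finset.mem_filter.1 hval).2] at e
      exact mem_kerSet.1 e
    obtain ⟨pre, post, rfl⟩ := List.append_of_mem hx
    have hxN := (hgood x hx).1
    obtain ⟨F1, F2, hF⟩ := List.append_of_mem hs
    have ht' : t ∈ F1 ++ F2 := by
      rw [hF] at ht
      simp only [List.mem_append, List.mem_cons] at ht ⊢
      rcases ht with h1 | rfl | h2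
      exacts [Or.inl h1, absurd rfl hst, Or.inr h2]
    obtain ⟨G1, G2, hG⟩ := List.append_of_mem ht'
    have hperm : x.1.Perm (s :: t :: (G1 ++ G2)) := by
      rw [hF]
      refine List.perm_middle.trans (List.Perm.cons s ?_)
      rw [hG]
      exact List.perm_middle
    have hrest : ∀ u ∈ G1 ++ G2, IsNormaliser M A u.2 := fun u hu =>
      hxN u (hperm.mem_iff.2 (List.mem_cons_of_mem _ (List.mem_cons_of_mem _ hu)))
    have hzero : eval val (tokF P x.1) * x.2 = 0 := by
      rw [eval_tokF_perm hA P val hperm hxN]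
      have hR := eval_tokF_mem hA P val hrest
      simp only [tokF, List.map_cons, eval_cons, usite, Tok.val] at hR ⊢
      have hsA := (hxN s hs).conj_mem (P.mem (val s.1))
      have htA := (hxN t ht).conj_mem (P.mem (val t.1))
      rw [← mul_assoc (s.2 * P.e (val s.1) * star s.2), hA.comm (mul_mem hsA htA) hR, mul_assoc,
        ← hv, hP (val s.1), mul_zero]
    rw [toks_append, eval_append]
    simp only [toks, eval_append, eval_cons, Tok.val]
    rw [← mul_assoc (eval val (tokF P x.1)), hzero]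
    simp
  -- no repetition inside a position
  push Not at htwice
  let π : V → {i : V // g i = i} := fun i => ⟨g i, hgg i⟩
  have hpi : ∀ i j, π i = π j ↔ g i = g j := fun i j => by simp [π]
  have hcount : ∀ w : {i : V // g i = i}, 2 ≤ (flatV (rename π L)).count w := by
    intro w
    obtain ⟨j, hj, hjK⟩ := hK w.1
    rw [hKg] at hjK
    have e1 : π w.1 = w := Subtype.ext w.2
    have e2 : π j = w := Subtype.ext (hjK.symm.trans w.2)
    have hsub : [w.1, j].Subperm (flatV L) :=
      List.subperm_of_subset (by simp [hj.symm]) (fun u _ => hall u)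
    rw [flatV_rename]
    obtain ⟨l, hl, hls⟩ := hsub
    refine le_trans ?_ ((hls.map π).count_le w)
    rw [(hl.map π).count_eq w]
    simp [e1, e2]
  have hgood' : ∀ x ∈ rename π L, Posn.Good M A x := by
    intro x hx
    obtain ⟨y, hy, rfl⟩ := List.mem_map.1 hx
    refine ⟨fun s hs => ?_, (hgood y hy).2⟩
    obtain ⟨s', hs', rfl⟩ := List.mem_map.1 hs
    exact (hgood y hy).1 s' hs'
  have hnd' : ∀ x ∈ rename π L, (x.1.map Prod.fst).Nodup := by
    intro x hx
    obtain ⟨y, hy, rfl⟩ := List.mem_map.1 hx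
    have hy' : (y.1.map Prod.fst).Nodup := by
      simp only [flatV] at hnd
      exact (List.nodup_flatMap.1 hnd).1 y hy
    have e : (y.1.map (fun s => (π s.1, s.2))).map Prod.fst = (y.1.map Prod.fst).map π := by
      simp [List.map_map, Function.comp_def]
    simp only
    rw [e]
    refine List.Nodup.map_on ?_ hy'
    intro i hi j hj hij
    obtain ⟨s, hs, rfl⟩ := List.mem_map.1 hi
    obtain ⟨t, ht, rfl⟩ := List.mem_map.1 hj
    by_contra hne
    exact htwice y hy s hs t ht hne ((hpi _ _).1 hij)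
  have hfull : Tendsto (fun P : Part A =>
      ‖∑ val ∈ Finset.univ.filter (fun val : V → Fin P.n => K ⊆ kerSet val),
        ⟪z0 Ω, eval val (toks P L) Ω⟫‖) (uf hA) (𝓝 0) := by
    rw [Metric.tendsto_nhds]
    intro η hη
    obtain ⟨P0, hP0⟩ := exists_word_small h (L := rename π L) (by simpa [rename] using hne) hgood'
      (fun x hx => by
        obtain ⟨y, hy, rfl⟩ := List.mem_map.1 hx
        simpa using hpos y hy)
      (fun x hx => by
        rw [rename, ← List.map_dropLast] at hx
        obtain ⟨y, hy, rfl⟩ := List.mem_map.1 hx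
        exact hN y hy)
      hnd' (fun w => by convert hcount w) hz0 (half_pos hη)
    filter_upwards [eventually_finer hA P0] with P hP
    rw [Real.dist_eq, sub_zero, abs_norm]
    refine lt_of_le_of_lt (le_trans (le_of_eq ?_) (hP0 P hP)) (by linarith)
    congr 1
    refine Finset.sum_bij' (fun val _ => fun w => val w.1) (fun k _ => k ∘ π) ?_ ?_ ?_ ?_ ?_
    · simp
    · intro k _
      simp only [Finset.mem_filter, Finset.mem_univ, true_and]
      intro p hp
      rw [mem_kerSet, Function.comp_apply, Function.comp_apply,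
        (hpi _ _).2 ((hKg p.1 p.2).1 hp)]
    · intro val hval
      funext i
      exact mem_kerSet.1 ((Finset.mem_filter.1 hval).2 ((hKg (g i) i).2 (hgg i)))
    · intro k _
      funext w
      exact congrArg k (Subtype.ext w.2)
    · intro val hval
      rw [eval_rename]
      congr 3
      funext i
      exact (mem_kerSet.1 ((Finset.mem_filter.1 hval).2 ((hKg (g i) i).2 (hgg i)))).symm
  have hrest : Tendsto (fun P : Part A => ∑ K' ∈ Finset.univ.filter (fun K' => K ⊂ K'),
      ‖kerSum K' (fun g : V → Fin P.n => ⟪z0 Ω, eval g (toks P L) Ω⟫)‖) (uf hA) (𝓝 0) := by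
    have := tendsto_finsetSum (f := fun K' (P : Part A) =>
        ‖kerSum K' (fun g : V → Fin P.n => ⟪z0 Ω, eval g (toks P L) Ω⟫)‖) (a := fun _ => (0 : ℝ))
      (Finset.univ.filter (fun K' => K ⊂ K')) (fun K' hK' => by
        have hss := (Finset.mem_filter.1 hK').2
        refine ih _ ?_ K' rfl (fun i => ?_)
        · rw [← hm, Finset.card_univ_sdiff, Finset.card_univ_sdiff]
          have := Finset.card_lt_card hss
          have := Finset.card_le_univ K'
          omega
        · obtain ⟨j, hj, hjK⟩ := hK i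
          exact ⟨j, hj, hss.1 hjK⟩)
    simpa using this
  refine squeeze_zero (fun _ => norm_nonneg _) (fun P => ?_)
    (by simpa using hfull.add hrest)
  set φ := fun val : V → Fin P.n => ⟪z0 Ω, eval val (toks P L) Ω⟫
  have e : ∑ val ∈ Finset.univ.filter (fun val : V → Fin P.n => K ⊆ kerSet val), φ val
      = kerSum K φ + ∑ K' ∈ Finset.univ.filter (fun K' => K ⊂ K'), kerSum K' φ := by
    rw [← Finset.sum_filter_add_sum_filter_not
      (Finset.univ.filter (fun val : V → Fin P.n => K ⊆ kerSet val)) (fun val => kerSet val = K)]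
    congr 1
    · rw [kerSum, Finset.filter_filter]
      refine Finset.sum_congr (Finset.filter_congr (fun val _ => ?_)) (fun _ _ => rfl)
      exact ⟨fun e => e.2, fun e => ⟨e ▸ subset_rfl, e⟩⟩
    · rw [← Finset.sum_fiberwise_of_maps_to (t := Finset.univ.filter (fun K' => K ⊂ K'))
        (g := fun val : V → Fin P.n => kerSet val)]
      · refine Finset.sum_congr rfl (fun K' hK' => ?_)
        have hss := (Finset.mem_filter.1 hK').2
        rw [kerSum]
        refine Finset.sum_congr ?_ (fun _ _ => rfl)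
        ext val
        simp only [Finset.mem_filter, Finset.mem_univ, true_and]
        exact ⟨fun e => e.2, fun e => ⟨⟨e ▸ hss.1, fun e' => hss.ne (e'.symm.trans e)⟩, e⟩⟩
      · intro val hval
        simp only [Finset.mem_filter, Finset.mem_univ, true_and] at hval ⊢
        exact Finset.ssubset_iff_subset_ne.2 ⟨hval.1, fun e => hval.2 e.symm⟩
  have e' : kerSum K φ = (∑ val ∈ Finset.univ.filter (fun val : V → Fin P.n => K ⊆ kerSet val),
      φ val) - ∑ K' ∈ Finset.univ.filter (fun K' => K ⊂ K'), kerSum K' φ := by rw [e]; abel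
  rw [e']
  exact (norm_sub_le _ _).trans (add_le_add le_rfl (norm_sum_le _ _))

/-- **Orthogonality.** The expected trace of an alternating word tends to zero. -/
theorem tendsto_cword {r : ℕ} {Ms : List (CPos H r)} (hne : Ms ≠ [])
    (hgood : ∀ x ∈ Ms, CPos.Good h.masa x) (hN : ∀ x ∈ Ms.dropLast, OrthN M A Ω x.2)
    {z0 : H →L[ℂ] H} (hz0 : z0 ∈ M) :
    Tendsto (fun P : Part A => ((Fintype.card (Fin P.n → Fin r) : ℂ))⁻¹ *
      ∑ f : Fin P.n → Fin r, ⟪z0 Ω, cword (bFam P f) Ms Ω⟫) (uf h.masa) (𝓝 0) := by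
  classical
  have hA := h.masa
  let ι := Σ i : Fin Ms.length, Fin ((Ms.get i).1.2.length)
  let pos : Fin Ms.length → Posn H ι := fun i =>
    (List.ofFn (fun g : Fin ((Ms.get i).1.2.length) => ((⟨i, g⟩ : ι), ((Ms.get i).1.2.get g).1)),
      (Ms.get i).1.1 * (Ms.get i).2)
  set L : List (Posn H ι) := List.ofFn pos with hL
  have hmem : ∀ x ∈ L, ∃ i, x = pos i := fun x hx => by
    rw [hL, List.mem_ofFn] at hx
    obtain ⟨i, rfl⟩ := hx
    exact ⟨i, rfl⟩
  have hget : ∀ i, CPos.Good hA (Ms.get i) := fun i => hgood _ (List.get_mem Ms i)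
  have hsite : ∀ i, ∀ s ∈ (pos i).1, ∃ g : Fin ((Ms.get i).1.2.length),
      s = (⟨i, g⟩, ((Ms.get i).1.2.get g).1) := fun i s hs => by
    rw [List.mem_ofFn] at hs
    obtain ⟨g, rfl⟩ := hs
    exact ⟨g, rfl⟩
  have hgoodL : ∀ x ∈ L, Posn.Good M A x := by
    intro x hx
    obtain ⟨i, rfl⟩ := hmem x hx
    refine ⟨fun s hs => ?_, mul_mem (hA.mem_M (hget i).1) (hget i).2.2.2.1⟩
    obtain ⟨g, rfl⟩ := hsite i s hs
    exact (hget i).2.2.1 _ (List.get_mem _ g)
  have hposL : ∀ x ∈ L, x.1 ≠ [] := by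
    intro x hx
    obtain ⟨i, rfl⟩ := hmem x hx
    intro hc
    have := congrArg List.length hc
    simp only [pos, List.length_ofFn, List.length_nil, List.length_eq_zero_iff] at this
    exact (hget i).2.1 this
  have hLne : L ≠ [] := by
    intro hc
    have := congrArg List.length hc
    simp only [hL, List.length_ofFn, List.length_nil, List.length_eq_zero_iff] at this
    exact hne this
  have hNL : ∀ x ∈ L.dropLast, OrthN M A Ω x.2 := by
    intro x hx
    obtain ⟨k, hk, rfl⟩ := List.getElem_of_mem hx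
    have hk' : k < Ms.length - 1 := by simpa [hL] using hk
    rw [List.getElem_dropLast, List.getElem_ofFn]
    refine orthN_mul_left h (cn_of_mem hA (hget _).1) (hget _).2.2.2.1 (hN _ ?_)
    exact List.mem_iff_getElem.2 ⟨k, by simpa using hk',
      by rw [List.getElem_dropLast]; rfl⟩
  have hfst : ∀ i, (pos i).1.map Prod.fst
      = List.ofFn (fun g : Fin ((Ms.get i).1.2.length) => (⟨i, g⟩ : ι)) := fun i => by
    simp [pos, List.map_ofFn, Function.comp_def]
  have hnd : (flatV L).Nodup := by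
    rw [flatV, List.nodup_flatMap]
    refine ⟨fun x hx => ?_, ?_⟩
    · obtain ⟨i, rfl⟩ := hmem x hx
      rw [hfst, List.nodup_ofFn]
      intro g g' e
      exact eq_of_heq (Sigma.mk.inj_iff.1 e).2
    · rw [hL, List.pairwise_ofFn]
      intro i j hij w hw1 hw2
      simp only [hfst, List.mem_ofFn] at hw1 hw2
      obtain ⟨g, rfl⟩ := hw1
      obtain ⟨g', e⟩ := hw2
      exact hij.ne' (congrArg Sigma.fst e)
  have hall : ∀ v : ι, v ∈ flatV L := fun v => by
    rw [flatV, List.mem_flatMap]
    exact ⟨pos v.1, by rw [hL, List.mem_ofFn]; exact ⟨v.1, rfl⟩,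
      by rw [hfst, List.mem_ofFn]; exact ⟨v.2, rfl⟩⟩
  have hsep : ∀ x ∈ L, ∀ s ∈ x.1, ∀ t ∈ x.1, s.1 ≠ t.1 → ∀ᶠ P in (uf hA : Filter (Part A)),
      ∀ i, (s.2 * P.e i * star s.2) * (t.2 * P.e i * star t.2) * x.2 = 0 := by
    intro x hx s hs t ht hst
    obtain ⟨j, rfl⟩ := hmem x hx
    obtain ⟨g, rfl⟩ := hsite j s hs
    obtain ⟨g', rfl⟩ := hsite j t ht
    have hgg : (g : ℕ) ≠ g' := fun e => hst (by rw [Fin.ext e])
    filter_upwards [(hget j).2.2.2.2] with P hP
    intro i
    have hu := (hget j).2.2.1 _ (List.get_mem _ g)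
    have hv := (hget j).2.2.1 _ (List.get_mem _ g')
    have hz : (Ms.get j).1.1 * ((((Ms.get j).1.2.get g).1 * P.e i * star ((Ms.get j).1.2.get g).1)
        * (((Ms.get j).1.2.get g').1 * P.e i * star ((Ms.get j).1.2.get g').1)) = 0 := by
      rw [CSep, Finite.Sep, List.pairwise_map, List.pairwise_iff_getElem] at hP
      rcases lt_or_gt_of_ne hgg with hlt | hlt
      · exact hP g g' g.2 g'.2 hlt i
      · exact Finite.sep_comm hA hv hu (hP g' g g'.2 g.2 hlt) i
    simp only [pos]
    rw [← mul_assoc, hA.comm (mul_mem (hu.conj_mem (P.mem i)) (hv.conj_mem (P.mem i)))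
      (hget j).1, hz, zero_mul]
  have hexact := tendsto_exact h hLne hgoodL hposL hNL hnd hall hz0 hsep
  refine squeeze_zero_norm (fun P => ?_)
    (show Tendsto (fun P : Part A => ∑ K ∈ Finset.univ.filter
        (fun K : Finset (ι × ι) => ∀ i, ∃ j, j ≠ i ∧ (i, j) ∈ K),
          ‖kerSum K (fun g : ι → Fin P.n => ⟪z0 Ω, eval g (toks P L) Ω⟫)‖) (uf hA) (𝓝 0) by
      simpa using (tendsto_finsetSum (a := fun _ => (0 : ℝ))
        (Finset.univ.filter (fun K : Finset (ι × ι) => ∀ i, ∃ j, j ≠ i ∧ (i, j) ∈ K))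
        (fun K hK => hexact K (Finset.mem_filter.1 hK).2)))
  refine le_trans (le_of_eq ?_) (sum_cmoment_mul_le (fun v : ι => ((Ms.get v.1).1.2.get v.2).2) _)
  congr 1
  rcases Nat.eq_zero_or_pos P.n with hn | hn
  · have : IsEmpty (Fin P.n) := by rw [hn]; infer_instance
    have h10 : (0 : H →L[ℂ] H) = 1 := by
      have := P.total
      rwa [Finset.univ_eq_empty, Finset.sum_empty] at this
    have hX : ∀ X : H →L[ℂ] H, X = 0 := fun X => by rw [← mul_one X, ← h10, mul_zero]
    simp [hX (cword _ Ms), hX (eval _ (toks P L))]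
  · set col : ι → Fin r := fun v => ((Ms.get v.1).1.2.get v.2).2 with hcol
    have base : ι → Fin P.n := fun _ => ⟨0, hn⟩
    have huniv : vars (toks P L) = Finset.univ := by
      ext v; simp [mem_vars_toks, hall]
    have hw : ∀ f : Fin P.n → Fin r, cword (bFam P f) Ms
        = ∑ g : ι → Fin P.n, (∏ v, (xi (col v) (f (g v)) : ℂ)) • eval g (toks P L) := fun f => by
      have hp := prod_cmix (fun v i => (xi (col v) (f i) : ℂ)) (L := toks P L)
        (by rw [occ_toks]; exact hnd) base
      rw [huniv, Env_univ, cmix_toks P (fun k i => (xi k (f i) : ℂ)) col] at hp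
      rw [← hp, hL, cword, List.map_ofFn, ← List.ofFn_getElem_eq_map]
      congr 2
      funext i
      have hT : (pos i).1.map (fun s => (s.2, col s.1)) = Ms[(i : ℕ)].1.2 := by
        simp [pos, col, List.map_ofFn, Function.comp_def]
      change Ms[(i : ℕ)].1.1 * csProd (bFam P f) Ms[(i : ℕ)].1.2 * Ms[(i : ℕ)].2
        = csProd (bFam P f) ((pos i).1.map (fun s => (s.2, col s.1))) * (Ms[(i : ℕ)].1.1 * Ms[(i : ℕ)].2)
      have hg : CPos.Good hA Ms[(i : ℕ)] := hget i
      rw [hT, hA.comm hg.1 (csProd_mem (bFam_mem P f) hg.2.2.1), mul_assoc]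
    simp only [hw, _root_.sum_apply, smul_apply, inner_sum, inner_smul_right]
    rw [Finset.sum_comm, Finset.mul_sum]
    refine Finset.sum_congr rfl (fun g _ => ?_)
    rw [← Finset.sum_mul, ← mul_assoc, cmoment]
    push_cast
    rfl


end Vale.Agent.P078.TypeIII.Seeded
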