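import Vale.Agent.P078.Sharp.Mix.Centre
import Vale.Agent.P078.TypeIII.Seeded.Moments

/-!
# Normal forms of seed polynomials, without a trace
-/

set_option linter.unusedSectionVars false

namespace Vale.Agent.P078.TypeIII.Seeded

open ComplexInnerProductSpace
open Filter Topology
open Vale.Agent.P078 Vale.Agent.P078.General Vale.Agent.P078.Finite Vale.Agent.P078.Sharp
open scoped CStarAlgebra

universe u

variable {H : Type u} [NormedAddCommGroup H] [InnerProductSpace ℂ H] [CompleteSpace H]
variable {M : VonNeumannAlgebra H} {A : StarSubalgebra ℂ (H →L[ℂ] H)} {Ω : H}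
variable {r : ℕ}

/-- The colour pieces of a seed polynomial; seeds take `s` values, colours `r`. -/
noncomputable def seedCol (P : Part A) {s r N : ℕ} (u : Fin N → H →L[ℂ] H)
    (coef : (Fin N → Fin s) → Fin r → H →L[ℂ] H) (f : Fin P.n → Fin s) (c : Fin r) : H →L[ℂ] H :=
  ∑ κ, coef κ c * patProd P u f κ

variable (h : CentSetting M A Ω)
include h

/-- For a normaliser `u` a projection of `A` separates the atoms where the translation by `u`
acts trivially from those which it moves away. -/
lemma exists_collapse {u : H →L[ℂ] H} (hu : IsNormaliser M A u) :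
    ∃ f ∈ A, IsStarProjection f ∧ (∀ a ∈ A, u * a * star u * f = a * f) ∧
      ∀ᶠ P in (uf h.masa : Filter (Part A)),
        ∀ i, P.e i * (u * P.e i * star u) * (1 - f) = 0 := by
  have hA := h.masa
  obtain ⟨f, p, ⟨hfA, hf⟩, hp, hfp, -, hsum, hufA, hpp⟩ := TypeIII.exists_split h hu
  have hfs : f * (star u * u) = f := by
    rw [← hsum, mul_add, hf.isIdempotentElem.eq, Finset.mul_sum]
    simp [hfp]
  have huf : u * f * star u = f := by
    calc u * f * star u = (u * f) * star (u * f) := by
          rw [star_mul, hf.isSelfAdjoint.star_eq]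
          simp only [← mul_assoc]
          rw [mul_assoc u f f, hf.isIdempotentElem.eq]
      _ = star (u * f) * (u * f) := hA.comm hufA (star_mem hufA)
      _ = f * (star u * u) * f := by
          rw [star_mul, hf.isSelfAdjoint.star_eq]; simp only [mul_assoc]
      _ = f := by rw [hfs, hf.isIdempotentElem.eq]
  refine ⟨f, hfA, hf, ?_, ?_⟩
  · intro a ha
    calc u * a * star u * f = u * a * star u * (u * f * star u) := by rw [huf]
      _ = (u * f) * a * star u := by
          rw [hu.conj_mul hA ha, hA.comm ha hfA]; simp only [mul_assoc]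
      _ = a * (u * f * star u) := by rw [hA.comm hufA ha]; simp only [mul_assoc]
      _ = a * f := by rw [huf]
  have hev : ∀ᶠ P in (uf hA : Filter (Part A)), ∀ j : Fin 3,
      twoPart (hp j).1 (hp j).2 ≤ P :=
    eventually_all.2 (fun j => eventually_finer hA _)
  filter_upwards [hev] with P hP i
  have h1f : 1 - f = (1 - u * star u) + ∑ j, u * p j * star u := by
    have : u * star u = f + ∑ j, u * p j * star u := by
      conv_rhs => rw [← huf, ← Finset.sum_mul, ← Finset.mul_sum, ← add_mul, ← mul_add, hsum,
        hu.mul_src]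
    rw [this]; abel
  rw [h1f, mul_add, Finset.mul_sum]
  have he : P.e i ∈ A := P.mem i
  have hue := hu.conj_mem he
  have z1 : u * P.e i * star u * (1 - u * star u) = 0 := by
    rw [mul_sub, mul_one, mul_assoc (u * P.e i), ← mul_assoc (star u), hu.src_mul_star, sub_self]
  rw [mul_assoc (P.e i) _ (1 - u * star u), z1, mul_zero, zero_add]
  refine Finset.sum_eq_zero (fun j _ => ?_)
  obtain ⟨k, hk⟩ := hP j i
  have hpA := (hp j).1
  rw [mul_assoc, hu.conj_mul hA he]
  fin_cases k
  · have hk' : p j * P.e i = P.e i := by simpa [twoPart] using hk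
    conv_lhs => arg 1; rw [← hk']
    rw [← hu.conj_mul hA he, hA.comm hue (hu.conj_mem hpA), hA.comm hpA he, mul_assoc (P.e i),
      ← mul_assoc (p j), hpp j, zero_mul, mul_zero]
  · have hk' : (1 - p j) * P.e i = P.e i := by simpa [twoPart] using hk
    rw [sub_mul, one_mul, sub_eq_self] at hk'
    rw [hA.comm he hpA, hk', mul_zero, zero_mul, mul_zero]


/-- Multiplying a separated monomial by one more translate. -/
lemma isNormal_insert {s : Site H r} (hs : IsNormaliser M A s.1) :
    ∀ (todo done : List (Site H r)) (a : H →L[ℂ] H), a ∈ A → SitesGood M A (done ++ todo) →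
      (∀ᶠ P in (uf h.masa : Filter (Part A)), CSep P a (done ++ todo)) →
      (∀ᶠ P in (uf h.masa : Filter (Part A)), ∀ v ∈ done, ∀ i,
        a * ((s.1 * P.e i * star s.1) * (v.1 * P.e i * star v.1)) = 0) →
      IsNormal h.masa (fun P f => a * (s.1 * bFam P f s.2 * star s.1 *
        csProd (bFam P f) (done ++ todo))) := by
  have hA := h.masa
  intro todo
  induction todo with
  | nil =>
    intro done a ha hT hsep h1
    rw [List.append_nil] at hT hsep
    refine (isNormal_term (t := (a, s :: done)) ⟨ha, by simp, ?_, ?_⟩).congr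
      (Filter.Eventually.of_forall (fun P f => by rw [List.append_nil, csProd_cons]))
    · intro v hv
      rcases List.mem_cons.1 hv with rfl | hv
      exacts [hs, hT v hv]
    · filter_upwards [hsep, h1] with P hP hP1
      refine List.pairwise_cons.2 ⟨fun p hp => ?_, hP⟩
      obtain ⟨v, hv, rfl⟩ := List.mem_map.1 hp
      exact hP1 v hv
  | cons v todo ih =>
    intro done a ha hT hsep h1
    have hv : IsNormaliser M A v.1 := hT v (by simp)
    obtain ⟨g, hgA, -, hcol, hev⟩ := exists_collapse h (IsNormaliser.mul hA hs.adjoint hv)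
    set X := s.1 * g * star s.1 with hX
    have hXA : X ∈ A := hs.conj_mem hgA
    have hXs : X * (s.1 * star s.1) = X := by
      rw [hX, mul_assoc (s.1 * g), ← mul_assoc (star s.1), hs.src_mul_star]
    have hswap : ∀ b ∈ A, v.1 * b * star v.1 * X = s.1 * b * star s.1 * X := by
      intro b hb
      have hV := hv.conj_mem hb
      have hR : s.1 * star s.1 ∈ A := hs.2.2.2.1
      calc v.1 * b * star v.1 * X = X * (s.1 * star s.1) * (v.1 * b * star v.1) := by
            rw [hXs, hA.comm hXA hV]
        _ = X * (v.1 * b * star v.1 * (s.1 * star s.1)) := by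
            rw [mul_assoc, hA.comm hR hV]
        _ = s.1 * (g * (star s.1 * v.1 * b * star (star s.1 * v.1))) * star s.1 := by
            rw [hX, star_mul, star_star]; simp only [mul_assoc]
        _ = s.1 * (b * g) * star s.1 := by
            rw [hA.comm hgA ((IsNormaliser.mul hA hs.adjoint hv).conj_mem hb), hcol b hb]
        _ = _ := by rw [hX, hs.conj_mul hA hb]
    have hXA' : 1 - X ∈ A := sub_mem (one_mem A) hXA
    have hdone : SitesGood M A done := fun w hw => hT w (by simp [hw])
    have hT' : SitesGood M A (done ++ todo) := fun w hw => hT w (by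
      simp only [List.mem_append, List.mem_cons] at hw ⊢; tauto)
    have hsepmul : ∀ {x : H →L[ℂ] H}, x ∈ A →
        ∀ᶠ P in (uf hA : Filter (Part A)), CSep P (a * x) (done ++ v :: todo) := fun hx => by
      filter_upwards [hsep] with P hP
      exact List.Pairwise.imp (fun {p q} e i => by rw [hA.comm ha hx, mul_assoc, e i, mul_zero]) hP
    have hY : IsNormal hA (fun P f => a * (1 - X) * (s.1 * bFam P f s.2 * star s.1 *
        csProd (bFam P f) (done ++ v :: todo))) := by
      have := ih (done ++ [v]) (a * (1 - X)) (mul_mem ha hXA') (by simpa using hT)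
        (by simpa using hsepmul hXA') ?_
      · simpa using this
      filter_upwards [h1, hev] with P hP hPu w hw i
      simp only [List.mem_append, List.mem_singleton] at hw
      rcases hw with hw | rfl
      · rw [hA.comm ha hXA', mul_assoc, hP w hw i, mul_zero]
      · have he := P.mem i
        have hse := hs.conj_mem he
        have hwe := hv.conj_mem he
        set Z := s.1 * P.e i * star s.1 * (w.1 * P.e i * star w.1) with hZ
        have hZX : Z * X = Z := by
          have e0 := hPu i
          rw [mul_sub, mul_one, sub_eq_zero] at e0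
          have e1 : Z = s.1 * (P.e i * (star s.1 * w.1 * P.e i * star (star s.1 * w.1)))
              * star s.1 := by
            calc Z = s.1 * P.e i * (star s.1 * s.1 * star s.1) * (w.1 * P.e i * star w.1) := by
                  rw [hZ, hs.src_mul_star]
              _ = s.1 * P.e i * star s.1 * (s.1 * star s.1 * (w.1 * P.e i * star w.1)) := by
                  simp only [mul_assoc]
              _ = s.1 * P.e i * star s.1 * (w.1 * P.e i * star w.1 * (s.1 * star s.1)) := by
                  rw [hA.comm hs.2.2.2.1 hwe]
              _ = _ := by rw [star_mul, star_star]; simp only [mul_assoc]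
          rw [e1, hX, hs.conj_mul hA (mul_mem he
            ((IsNormaliser.mul hA hs.adjoint hv).conj_mem he)), ← e0]
        rw [mul_assoc a, hA.comm hXA' (mul_mem hse hwe), mul_sub, mul_one, hZX, sub_self,
          mul_zero]
    set k1 : ℂ := (((if s.2 = v.2 then (1 : ℝ) else 0) - 1 / r : ℝ) : ℂ)
    set k2 : ℂ := ((-(1 / r) : ℝ) : ℂ)
    set k3 : ℂ := (((if s.2 = v.2 then (1 : ℝ) else 0) / r - (1 / r) ^ 2 : ℝ) : ℂ)
    have hscal : ∀ (k : ℂ) {x : H →L[ℂ] H}, x ∈ A → k • x ∈ A := fun k x hx =>
      A.toSubalgebra.smul_mem hx k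
    have hX1 : IsNormal hA (fun P f => a * X * (s.1 * bFam P f s.2 * star s.1 *
        csProd (bFam P f) (done ++ v :: todo))) := by
      have hvd : IsNormaliser M A ((v.1, s.2) : Site H r).1 := hv
      have hTd : SitesGood M A (done ++ (v.1, s.2) :: todo) := fun w hw => by
        simp only [List.mem_append, List.mem_cons] at hw
        rcases hw with hw | rfl | hw
        exacts [hT w (by simp [hw]), hv, hT w (by simp [hw])]
      have g1 : IsNormal hA (fun P f => k1 • (a * X) * csProd (bFam P f) (done ++ v :: todo)) := by
        refine isNormal_term (t := (k1 • (a * X), done ++ v :: todo))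
          ⟨hscal _ (mul_mem ha hXA), by simp, hT, ?_⟩
        filter_upwards [hsepmul hXA] with P hP
        exact List.Pairwise.imp (fun {p q} e i => by rw [smul_mul_assoc, e i, smul_zero]) hP
      have g2 : IsNormal hA (fun P f => k2 • (a * X) *
          csProd (bFam P f) (done ++ (v.1, s.2) :: todo)) := by
        refine isNormal_term (t := (k2 • (a * X), done ++ (v.1, s.2) :: todo))
          ⟨hscal _ (mul_mem ha hXA), by simp, hTd, ?_⟩
        filter_upwards [hsepmul hXA] with P hP
        simp only [CSep, List.map_append, List.map_cons] at hP ⊢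
        exact List.Pairwise.imp (fun {p q} e i => by rw [smul_mul_assoc, e i, smul_zero]) hP
      have hvv : v.1 * star v.1 ∈ A := hv.2.2.2.1
      have g3 : IsNormal hA (fun P f => k3 • (a * X * (v.1 * star v.1)) *
          csProd (bFam P f) (done ++ todo)) := by
        have hc : k3 • (a * X * (v.1 * star v.1)) ∈ A := hscal _ (mul_mem (mul_mem ha hXA) hvv)
        by_cases hempty : done ++ todo = []
        · simp only [hempty, csProd_nil, mul_one]
          exact isNormal_const hc
        · refine isNormal_term (t := (_, done ++ todo)) ⟨hc, hempty, hT', ?_⟩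
          filter_upwards [hsepmul (mul_mem hXA hvv)] with P hP
          rw [mul_assoc a]
          refine List.Pairwise.sublist (((List.sublist_cons_self v todo).append_left done).map _) ?_
          exact List.Pairwise.imp (fun {p q} e i => by rw [smul_mul_assoc, e i, smul_zero]) hP
      refine ((g1.add g2).add g3).congr (Filter.Eventually.of_forall (fun P f => ?_))
      have hb := bFam_mem P f
      rw [csProd_middle hA hb hv hdone, csProd_middle hA hb hvd hdone]
      set R := csProd (bFam P f) (done ++ todo)
      have e1 : a * X * (s.1 * bFam P f s.2 * star s.1)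
          = a * X * (v.1 * bFam P f s.2 * star v.1) := by
        rw [mul_assoc a, hA.comm hXA (hs.conj_mem (hb _)), ← hswap _ (hb _),
          ← hA.comm hXA (hv.conj_mem (hb _)), mul_assoc a]
      have e2 : v.1 * bFam P f s.2 * star v.1 * (v.1 * bFam P f v.2 * star v.1)
          = k1 • (v.1 * bFam P f v.2 * star v.1) + k2 • (v.1 * bFam P f s.2 * star v.1)
            + k3 • (v.1 * star v.1) := by
        rw [hv.conj_mul hA (hb _), bFam_mul]
        simp only [mul_add, add_mul, mul_smul_comm, smul_mul_assoc, mul_one, k1, k2, k3]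
      rw [← mul_assoc (a * X), e1, mul_assoc (a * X), ← mul_assoc (v.1 * bFam P f s.2 * star v.1),
        e2]
      simp only [add_mul, mul_add, smul_mul_assoc, mul_smul_comm, mul_assoc]
    refine (hX1.add hY).congr (Filter.Eventually.of_forall (fun P f => ?_))
    rw [← add_mul, ← mul_add, add_sub_cancel, mul_one]

/-- Multiplying a normal polynomial by one more translate. -/
lemma isNormal_mulSite {Z : ∀ P : Part A, (Fin P.n → Fin r) → (H →L[ℂ] H)}
    (hZ : IsNormal h.masa Z) {s : Site H r} (hs : IsNormaliser M A s.1) :
    IsNormal h.masa (fun P f => s.1 * bFam P f s.2 * star s.1 * Z P f) := by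
  have hA := h.masa
  obtain ⟨α, hα, L, hL, hev⟩ := hZ
  have h0 : IsNormal hA (fun P f => α * csProd (bFam P f) [s]) :=
    isNormal_term (t := (α, [s])) ⟨hα, by simp, fun v hv => by rw [List.mem_singleton.1 hv]; exact hs,
      Filter.Eventually.of_forall (fun P => List.pairwise_singleton _ _)⟩
  have h1 := IsNormal.listSum (hA := hA)
    (Z := fun (t : (H →L[ℂ] H) × List (Site H r)) P f =>
      t.1 * (s.1 * bFam P f s.2 * star s.1 * csProd (bFam P f) t.2)) L (fun t ht => by
    obtain ⟨ha, -, hT, hsep⟩ := hL t ht
    have := isNormal_insert h hs t.2 [] t.1 ha (by simpa using hT) (by simpa using hsep)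
      (Filter.Eventually.of_forall (fun P v hv => by simp at hv))
    simpa using this)
  refine (h0.add h1).congr ?_
  filter_upwards [hev] with P hP f
  have hS := hs.conj_mem (bFam_mem P f s.2)
  rw [hP, mul_add, csProd_cons, csProd_nil, mul_one, hA.comm hS hα]
  congr 1
  simp only [termSum, ← List.sum_map_mul_left]
  refine congrArg List.sum (List.map_congr_left (fun t ht => ?_))
  rw [← mul_assoc, hA.comm hS (hL t ht).1, mul_assoc]

/-- A product of translated pieces is normal. -/
lemma isNormal_pieces {a : H →L[ℂ] H} (ha : a ∈ A) :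
    ∀ {T : List (Site H r)}, SitesGood M A T →
      IsNormal h.masa (fun P f => a * (T.map (fun s => s.1 * P.piece f s.2 * star s.1)).prod)
  | [], _ => by simpa using isNormal_const (hA := h.masa) (r := r) ha
  | s :: T, hT => by
    have hA := h.masa
    have hs := hT.head
    have ih := isNormal_pieces ha hT.tail
    refine ((ih.mulA (A.toSubalgebra.smul_mem hs.2.2.2.1 ((1 / r : ℝ) : ℂ))).add
      (isNormal_mulSite h ih hs)).congr (Filter.Eventually.of_forall (fun P f => ?_))
    have hS := hs.conj_mem (bFam_mem P f s.2)
    have e : s.1 * P.piece f s.2 * star s.1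
        = ((1 / r : ℝ) : ℂ) • (s.1 * star s.1) + s.1 * bFam P f s.2 * star s.1 := by
      rw [piece_eq_bOp, mul_add, add_mul, mul_smul_comm, mul_one, smul_mul_assoc]
      rfl
    rw [List.map_cons, List.prod_cons, e, ← mul_assoc a,
      hA.comm ha (add_mem (A.toSubalgebra.smul_mem hs.2.2.2.1 _) hS), mul_assoc, add_mul]

/-- A monomial times a monomial is normal. -/
lemma isNormal_mul_monomial {a : H →L[ℂ] H} (ha : a ∈ A)
    {t : (H →L[ℂ] H) × List (Site H r)} (ht : TermGood h.masa t) :
    ∀ {T : List (Site H r)}, SitesGood M A T →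
      IsNormal h.masa (fun P f => a * csProd (bFam P f) T * (t.1 * csProd (bFam P f) t.2))
  | [], _ => by simpa [csProd_nil] using (isNormal_term ht).mulA ha
  | s :: T, hT => by
    have hA := h.masa
    have hs := hT.head
    refine (isNormal_mulSite h (isNormal_mul_monomial ha ht hT.tail) hs).congr
      (Filter.Eventually.of_forall (fun P f => ?_))
    rw [csProd_cons, ← mul_assoc a, hA.comm ha (hs.conj_mem (bFam_mem P f s.2))]
    simp only [mul_assoc]


/-- **Centring.** A seed colour piece of average `1 / r` is, eventually, `1 / r` plus separated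
monomials. -/
theorem exists_centred {s N : ℕ} [NeZero s] {u : Fin N → H →L[ℂ] H}
    (hu : ∀ i, IsNormaliser M A (u i)) {coef : (Fin N → Fin s) → Fin r → H →L[ℂ] H}
    (hcoef : ∀ κ c, coef κ c ∈ A) (c : Fin r)
    (hunif : ∀ᶠ P in (uf h.masa : Filter (Part A)), ∑ f : Fin P.n → Fin s, seedCol P u coef f c
      = ((Fintype.card (Fin P.n → Fin s) : ℂ) / r) • 1) :
    ∃ L : List ((H →L[ℂ] H) × List (Site H s)), (∀ t ∈ L, TermGood h.masa t) ∧
      ∀ᶠ P in (uf h.masa : Filter (Part A)), ∀ f,
        seedCol P u coef f c - ((1 / r : ℝ) : ℂ) • 1 = termSum (bFam P f) L := by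
  have hA := h.masa
  have hN : IsNormal hA (fun P f => seedCol P u coef f c) := by
    refine IsNormal.sum _ (fun κ _ => ?_)
    have := isNormal_pieces h (r := s) (hcoef κ c)
      (T := List.ofFn (fun i => ((u i, κ i) : Site H s))) (fun z hz => by
        rw [List.mem_ofFn] at hz
        obtain ⟨i, rfl⟩ := hz
        exact hu i)
    simpa [patProd, List.map_ofFn, Function.comp_def] using this
  obtain ⟨α, -, L, hL, hev⟩ := hN
  refine ⟨L, hL, ?_⟩
  have hα : α = ((1 / r : ℝ) : ℂ) • (1 : H →L[ℂ] H) := by
    obtain ⟨P, hP, hP0, hU⟩ := (hev.and ((eventually_sum_termSum hL).and hunif)).exists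
    have hcard : (Fintype.card (Fin P.n → Fin s) : ℂ) ≠ 0 := by
      have : Nonempty (Fin P.n → Fin s) := ⟨fun _ => 0⟩
      exact_mod_cast Fintype.card_ne_zero
    simp only [hP, Finset.sum_add_distrib, hP0, add_zero, Finset.sum_const, Finset.card_univ]
      at hU
    rw [← Nat.cast_smul_eq_nsmul ℂ] at hU
    refine smul_right_injective _ hcard ?_
    simp only [hU, smul_smul]
    congr 1
    push_cast
    ring
  filter_upwards [hev] with P hP f
  rw [hP f, hα, add_sub_cancel_left]

end Vale.Agent.P078.TypeIII.Seeded
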