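import Vale.Agent.P078.Sharp.Mix.Inclusions
import Vale.Agent.P078.TypeIII.Seeded.Normal
import Vale.Agent.P078.TypeIII.Seeded.Equi

/-!
# The spaces of coloured word vectors, without a trace
-/

set_option linter.unusedSectionVars false

namespace Vale.Agent.P078.TypeIII.Seeded

open ComplexInnerProductSpace
open Filter Topology
open Vale.Agent.P078 Vale.Agent.P078.General Vale.Agent.P078.Finite Vale.Agent.P078.Sharp
open scoped CStarAlgebra

universe u

variable {H : Type u} [NormedAddCommGroup H] [InnerProductSpace ℂ H] [CompleteSpace H]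
variable {M : VonNeumannAlgebra H} {A : StarSubalgebra ℂ (H →L[ℂ] H)} {Ω : H} {r : ℕ}

variable (h : CentSetting M A Ω)
include h

lemma tendsto_avg_zero {Ms : List (CPos H r)} (hMs : CWGood h.masa Ω Ms) {z0 : H →L[ℂ] H}
    (hz0 : z0 ∈ M) {Φ Ψ : Fam h.masa r}
    (he : ∀ P f, ⟪Φ.at' P f, Ψ.at' P f⟫ = ⟪z0 Ω, cword (bFam P f) Ms Ω⟫) : ⟪Φ, Ψ⟫ = 0 := by
  refine tendsto_nhds_unique (Fam.tendsto_inner Φ Ψ) ?_
  refine (tendsto_cword h hMs.1 hMs.2.1 hMs.2.2 hz0).congr (fun P => ?_)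
  simp only [Fam.avg, he]

/-- Constants are asymptotically orthogonal to words. -/
lemma inner_cvec_cwvec {z : H →L[ℂ] H} (hz : z ∈ M) {Ms : List (CPos H r)}
    (hMs : CWGood h.masa Ω Ms) : ⟪cvec h.masa Ω r z, cwvec h.masa Ω 1 Ms⟫ = 0 :=
  tendsto_avg_zero h hMs hz (fun P f => by rw [cvec_at, cwvec_at _ hMs.2.1, one_mul])

/-- Words after an orthogonal element are orthogonal to words. -/
lemma inner_cwvec_cwvec {y : H →L[ℂ] H} (hy : y ∈ M) (hyN : OrthN M A Ω y)
    {Ns Ms : List (CPos H r)} (hNs : CWGood h.masa Ω Ns) (hMs : CWGood h.masa Ω Ms) :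
    ⟪cwvec h.masa Ω y Ns, cwvec h.masa Ω 1 Ms⟫ = 0 := by
  obtain ⟨pre', G, rfl, hpre', hG⟩ := exists_last hNs
  have hys : star y ∈ M := star_mem hy
  refine tendsto_avg_zero h (Ms := crev pre' G.1 (star y) ++ Ms) ⟨by simp [hMs.1], ?_, ?_⟩
    hG.2.2.2.1 (fun P f => ?_)
  · intro x hx
    simp only [List.mem_append] at hx
    rcases hx with hx | hx
    exacts [good_crev (fun w hw => (hpre' w hw).1) hG hys x hx, hMs.2.1 x hx]
  · rw [List.dropLast_append_of_ne_nil hMs.1]
    intro x hx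
    simp only [List.mem_append] at hx
    rcases hx with hx | hx
    swap
    · exact hMs.2.2 x hx
    rcases List.eq_nil_or_concat (crev pre' G.1 (star y)) with h0 | ⟨l, t, hlt⟩
    · exact absurd h0 (crev_ne_nil _ _ _)
    rw [List.concat_eq_append] at hlt
    rw [hlt, List.mem_append, List.mem_singleton] at hx
    rcases hx with hx | rfl
    · obtain ⟨w, hw, e⟩ := dropLast_crev pre' G.1 (star y) x
        (by rw [hlt, List.dropLast_concat]; exact hx)
      rw [e]
      exact orthN_star h (hpre' w hw).1.2.2.2.1 (hpre' w hw).2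
    · have : x.2 = star y := by
        cases pre' with
        | nil =>
          simp only [crev] at hlt
          have e := congrArg List.getLast? hlt
          rw [List.getLast?_concat] at e
          simp only [List.getLast?_singleton, Option.some.injEq] at e
          rw [← e]
        | cons p q =>
          simp only [crev] at hlt
          have e := (List.append_inj' hlt rfl).2
          simp only [List.cons.injEq, and_true] at e
          rw [← e]
      rw [this]
      exact orthN_star h hy hyN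
  · have hb := bFam_mem P f
    obtain ⟨ha, -, hT, -, -⟩ := hG
    have e := star_cword_mul (hA := h.masa) hb (bFam_sa P f) (Ms := pre')
      (fun w hw => (hpre' w hw).1) ha hT (star y)
    rw [cwvec_at _ hNs.2.1, cwvec_at _ hMs.2.1, one_mul, inner_apply, inner_apply, cword_append,
      cword_append, ← e]
    simp only [cword_cons, cword_nil, mul_one, star_mul, mul_assoc]

lemma cwvec_mem_T2 {y : H →L[ℂ] H} (hy : y ∈ M) (hyN : OrthN M A Ω y)
    {Ms : List (CPos H r)} (hMs : CWGood h.masa Ω Ms) :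
    cwvec h.masa Ω y Ms ∈ T2 h.masa Ω r :=
  Submodule.subset_span ⟨y, hy, hyN, Or.inr ⟨Ms, hMs, rfl⟩⟩

lemma cvec_mem_S0T2 {z : H →L[ℂ] H} (hz : z ∈ M) :
    cvec h.masa Ω r z ∈ S0 h.masa Ω r ⊔ T2 h.masa Ω r := by
  obtain ⟨n, hn, -, hrest, -⟩ := exists_decomp h hz
  rw [show z = n + (z - n) by abel, cvec_add]
  exact Submodule.add_mem_sup (Submodule.subset_span ⟨n, hn.1, rfl⟩)
    (Submodule.subset_span ⟨z - n, sub_mem hz hn.1.1, hrest, Or.inl rfl⟩)

/-- A normaliser times a word is a word. -/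
lemma normaliser_cword_mem {v : H →L[ℂ] H} (hv : IsNormaliser M A v)
    {Ms : List (CPos H r)} (hMs : CWGood h.masa Ω Ms) :
    cwvec h.masa Ω v Ms ∈ T1 h.masa Ω r := by
  have hA := h.masa
  obtain ⟨x, rest, rfl⟩ := List.exists_cons_of_ne_nil hMs.1
  obtain ⟨-, hgood, hN⟩ := hMs
  have hx := hgood x (List.mem_cons_self ..)
  have hvx : CPos.Good hA (ctranslate v x) := by
    refine ⟨hv.conj_mem hx.1, by simpa [ctranslate] using hx.2.1, ?_, mul_mem hv.mem hx.2.2.2.1, ?_⟩
    · intro u hu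
      simp only [ctranslate, List.mem_map] at hu
      obtain ⟨u', hu', rfl⟩ := hu
      exact IsNormaliser.mul hA hv (hx.2.2.1 u' hu')
    · filter_upwards [hx.2.2.2.2] with P hP
      simp only [ctranslate, CSep, Finite.Sep, List.map_map, List.pairwise_map] at hP ⊢
      refine List.Pairwise.imp_of_mem (fun {p q} hp hq hs i => ?_) hP
      have hpA := (hx.2.2.1 p hp).conj_mem (P.mem i)
      have hqA := (hx.2.2.1 q hq).conj_mem (P.mem i)
      have e1 : ∀ w : H →L[ℂ] H,
          v * w * P.e i * star (v * w) = v * (w * P.e i * star w) * star v := fun w => by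
        rw [star_mul]; simp only [mul_assoc]
      simp only [Function.comp_apply]
      rw [e1, e1, hv.conj_mul hA hpA, hv.conj_mul hA hx.1, hs i, mul_zero, zero_mul]
  have hW : CWGood hA Ω (ctranslate v x :: rest) := by
    refine ⟨by simp, fun z hz => ?_, fun z hz => ?_⟩
    · rcases List.mem_cons.1 hz with rfl | hz
      exacts [hvx, hgood z (List.mem_cons_of_mem _ hz)]
    · by_cases hr : rest = []
      · subst hr; simp at hz
      · rw [List.dropLast_cons_of_ne_nil hr] at hz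
        rcases List.mem_cons.1 hz with rfl | hz
        · exact orthN_mul_left_normaliser h hv hx.2.2.2.1
            (hN x (by rw [List.dropLast_cons_of_ne_nil hr]; exact List.mem_cons_self ..))
        · exact hN z (by rw [List.dropLast_cons_of_ne_nil hr]; exact List.mem_cons_of_mem _ hz)
  refine Submodule.subset_span ⟨_, hW, Fam.ext' (fun P f => ?_)⟩
  rw [cwvec_at _ hgood, cwvec_at _ hW.2.1, one_mul, cword_cons, cword_cons, ← mul_assoc v,
    conj_mul_cword hA hv (bFam_mem P f) hx.1 hx.2.2.1]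

/-- An element of the closed span of the normalisers times a word is a limit of words. -/
lemma spanC_cword_mem {s : H →L[ℂ] H} (hs : s ∈ spanC M A)
    {Ms : List (CPos H r)} (hMs : CWGood h.masa Ω Ms) :
    cwvec h.masa Ω s Ms ∈ (T1 h.masa Ω r).topologicalClosure := by
  have hspan : ∀ s ∈ spanN M A, cwvec h.masa Ω s Ms ∈ T1 h.masa Ω r := by
    intro s hs
    induction hs using Submodule.span_induction with
    | mem v hv => exact normaliser_cword_mem h hv hMs
    | zero =>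
      rw [show cwvec h.masa Ω (0 : H →L[ℂ] H) Ms = 0 from
        Fam.ext' (fun P f => by simp [cwvec_at _ hMs.2.1])]
      exact zero_mem _
    | add a b _ _ ha hb => rw [cwvec_add _ _ hMs.2.1]; exact add_mem ha hb
    | smul k a _ ha => rw [cwvec_smul _ _ hMs.2.1]; exact Submodule.smul_mem _ _ ha
  obtain ⟨C, hC0, hC⟩ := exists_cword_bound hMs.2.1
  refine Metric.mem_closure_iff.2 (fun η hη => ?_)
  obtain ⟨t, ht, hd⟩ := Metric.mem_closure_iff.1 hs (η / (C * ‖Ω‖ + 1)) (by positivity)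
  refine ⟨_, hspan t ht, ?_⟩
  rw [dist_eq_norm] at hd ⊢
  have e : cwvec h.masa Ω s Ms - cwvec h.masa Ω t Ms = cwvec h.masa Ω (s - t) Ms := by
    rw [sub_eq_iff_eq_add, ← cwvec_add _ _ hMs.2.1, sub_add_cancel]
  rw [e]
  refine lt_of_le_of_lt (Fam.norm_le_of_eventually (C := ‖s - t‖ * (C * ‖Ω‖)) (by positivity)
    (Filter.Eventually.of_forall (fun P f => ?_))) ?_
  · rw [cwvec_at _ hMs.2.1, mul_apply_eq_comp]
    exact ((s - t).le_opNorm _).trans (mul_le_mul_of_nonneg_left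
      (((cword (bFam P f) Ms).le_opNorm Ω).trans
        (mul_le_mul_of_nonneg_right (hC P f) (norm_nonneg _))) (norm_nonneg _))
  · refine lt_of_le_of_lt (mul_le_mul_of_nonneg_left (le_add_of_nonneg_right zero_le_one)
      (norm_nonneg _)) ?_
    rwa [← lt_div_iff₀ (by positivity)]

/-- Bounded elements small at `Ω` are uniformly small after a word. -/
lemma exists_eps_cword {Ms : List (CPos H r)} (hMs : ∀ x ∈ Ms, CPos.Good h.masa x) {C η : ℝ}
    (hC : 0 ≤ C) (hη : 0 < η) :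
    ∃ ε, 0 < ε ∧ ∀ T ∈ M, ‖T‖ ≤ C → ‖T Ω‖ ≤ ε → ∀ (P : Part A) (f : Fin P.n → Fin r),
      ‖(T * cword (bFam P f) Ms) Ω‖ ≤ η := by
  have hA := h.masa
  obtain ⟨ε, hε, hw⟩ := exists_eps_Aword h
    (ys := Ms.map (fun x => ((‖x.1.1‖ + 1 : ℝ) : ℂ) • x.2)) (fun y hy => by
      obtain ⟨x, hx, rfl⟩ := List.mem_map.1 hy
      exact smul_mem_vna _ (hMs x hx).2.2.2.1) hC hη
  refine ⟨ε, hε, fun T hT hTC hTs P f => ?_⟩
  have key := hw T hT hTC hTs (Ms.map (fun x => ((((‖x.1.1‖ + 1)⁻¹ : ℝ) : ℂ) •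
      (x.1.1 * csProd (bFam P f) x.1.2), ((‖x.1.1‖ + 1 : ℝ) : ℂ) • x.2)))
    (by simp [List.map_map, Function.comp_def]) (fun z hz => by
      obtain ⟨x, hx, rfl⟩ := List.mem_map.1 hz
      obtain ⟨hxa, -, hxT, -, -⟩ := hMs x hx
      refine ⟨A.toSubalgebra.smul_mem (mul_mem hxa (csProd_mem (bFam_mem P f) hxT)) _, ?_⟩
      rw [norm_smul, Complex.norm_real, Real.norm_eq_abs, abs_of_pos (by positivity),
        inv_mul_le_iff₀ (by positivity), mul_one]
      exact ((norm_mul_le _ _).trans (mul_le_of_le_one_right (norm_nonneg _)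
        (norm_csProd_le (norm_bFam_le P f) hxT))).trans (le_add_of_nonneg_right zero_le_one))
  convert key using 5
  simp only [cword, List.map_map, Function.comp_def]
  refine congrArg List.prod (List.map_congr_left (fun x _ => ?_))
  rw [smul_mul_smul_comm, ← Complex.ofReal_mul, inv_mul_cancel₀ (by positivity),
    Complex.ofReal_one, one_smul]

/-- A self-adjoint element generated by normalisers times a word is a limit of words. -/
lemma cn_sa_cword_mem {n : H →L[ℂ] H} (hn : CN M A Ω n) (hns : IsSelfAdjoint n)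
    {Ms : List (CPos H r)} (hMs : CWGood h.masa Ω Ms) :
    cwvec h.masa Ω n Ms ∈ (T1 h.masa Ω r).topologicalClosure := by
  obtain ⟨C, hC0, hC⟩ := exists_cword_bound hMs.2.1
  refine (Submodule.isClosed_topologicalClosure _).closure_subset
    (Metric.mem_closure_iff.2 (fun η hη => ?_))
  obtain ⟨z, hzM, -, hz, D, hD, happ⟩ := exists_bounded_approx h hn hns
    (show 0 < η / (3 * (C * ‖Ω‖ + 1)) by positivity)
  obtain ⟨ε, hε, hsmall⟩ := exists_eps_cword h hMs.2.1 (C := ‖z‖ + D) (by positivity)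
    (show 0 < η / 3 by linarith)
  obtain ⟨s, hs, -, hsD, hsd⟩ := happ ε hε
  refine ⟨_, spanC_cword_mem h hs hMs, ?_⟩
  rw [dist_eq_norm]
  have e : cwvec h.masa Ω n Ms - cwvec h.masa Ω s Ms = cwvec h.masa Ω (n - s) Ms := by
    rw [sub_eq_iff_eq_add, ← cwvec_add _ _ hMs.2.1, sub_add_cancel]
  rw [e]
  refine lt_of_le_of_lt (Fam.norm_le_of_eventually (C := 2 * (η / 3)) (by positivity)
    (Filter.Eventually.of_forall (fun P f => ?_))) (by linarith)
  rw [cwvec_at _ hMs.2.1, show n - s = (n - z) + (z - s) by abel, add_mul, add_apply]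
  refine (norm_add_le _ _).trans ?_
  have h2 := hsmall (z - s) (sub_mem hzM (spanC_mem_M hs))
    ((norm_sub_le _ _).trans (by linarith)) hsd P f
  have h1 : ‖((n - z) * cword (bFam P f) Ms) Ω‖ ≤ η / 3 := by
    rw [mul_apply_eq_comp]
    refine ((n - z).le_opNorm _).trans ((mul_le_mul hz
      (((cword (bFam P f) Ms).le_opNorm Ω).trans
        (mul_le_mul_of_nonneg_right (hC P f) (norm_nonneg _))) (norm_nonneg _) (by positivity)).trans ?_)
    rw [div_mul_eq_mul_div, div_le_div_iff₀ (by positivity) (by norm_num)]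
    nlinarith
  linarith

omit h in
lemma inN_add {a b : H →L[ℂ] H} (ha : InN M A Ω a) (hb : InN M A Ω b) : InN M A Ω (a + b) :=
  ⟨add_mem ha.1 hb.1, by rw [add_apply]; exact add_mem ha.2 hb.2⟩

omit h in
lemma inN_smul (k : ℂ) {a : H →L[ℂ] H} (ha : InN M A Ω a) : InN M A Ω (k • a) :=
  ⟨smul_mem_vna k ha.1, by rw [smul_apply]; exact Submodule.smul_mem _ _ ha.2⟩

/-- An element generated by normalisers times a word is a limit of words. -/
lemma cn_cword_mem {n : H →L[ℂ] H} (hn : CN M A Ω n)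
    {Ms : List (CPos H r)} (hMs : CWGood h.masa Ω Ms) :
    cwvec h.masa Ω n Ms ∈ (T1 h.masa Ω r).topologicalClosure := by
  set n1 := (1 / 2 : ℂ) • (n + star n) with hn1
  set n2 := (-Complex.I / 2) • n + (Complex.I / 2) • star n with hn2
  have e : n = n1 + Complex.I • n2 := by
    rw [hn1, hn2, smul_add, smul_add, smul_smul, smul_smul, mul_div_assoc', mul_div_assoc',
      mul_neg, Complex.I_mul_I]
    module
  have s1 : star n1 = n1 := by simp [hn1, star_add, star_smul, add_comm]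
  have s2 : star n2 = n2 := by
    simp only [hn2, star_add, star_smul, star_star, star_neg, star_div₀, Complex.star_def,
      Complex.conj_I, map_ofNat, neg_neg]
    rw [add_comm]
  have c1 : CN M A Ω n1 := by
    refine ⟨?_, ?_⟩
    · exact inN_smul _ (inN_add hn.1 hn.2)
    · rw [s1]; exact inN_smul _ (inN_add hn.1 hn.2)
  have c2 : CN M A Ω n2 := by
    have h2 : InN M A Ω n2 := inN_add (inN_smul _ hn.1) (inN_smul _ hn.2)
    exact ⟨h2, by rw [s2]; exact h2⟩
  have := add_mem (cn_sa_cword_mem h c1 s1 hMs)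
    (Submodule.smul_mem _ Complex.I (cn_sa_cword_mem h c2 s2 hMs))
  rwa [← cwvec_smul _ _ hMs.2.1, ← cwvec_add _ _ hMs.2.1, ← e] at this

section

variable {L : List ((H →L[ℂ] H) × List (Site H r))} (hL : ∀ t ∈ L, TermGood h.masa t)
include hL

lemma termSum_cvec {z : H →L[ℂ] H} (hz : z ∈ M) :
    ∃ Ψ ∈ T1 h.masa Ω r, ∀ᶠ P in (uf h.masa : Filter (Part A)), ∀ f,
      Ψ.at' P f = termSum (bFam P f) L (z Ω) := by
  refine exists_termSum_vec (fun _ _ => z Ω) (fun t ht => ?_)
  have hW : CWGood h.masa Ω [(t, z)] :=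
    cwgood_cons (hL t ht) hz (by simp) (by simp) (fun hc => absurd rfl hc)
  exact ⟨_, Submodule.subset_span ⟨_, hW, rfl⟩, Filter.Eventually.of_forall (fun P f => by
    rw [cwvec_at _ hW.2.1]; simp [cword])⟩

lemma termSum_cwvec {y : H →L[ℂ] H} (hy : y ∈ M) (hyN : OrthN M A Ω y) {Ms : List (CPos H r)}
    (hMs : CWGood h.masa Ω Ms) :
    ∃ Ψ ∈ T1 h.masa Ω r, ∀ᶠ P in (uf h.masa : Filter (Part A)), ∀ f,
      Ψ.at' P f = termSum (bFam P f) L ((y * cword (bFam P f) Ms) Ω) := by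
  refine exists_termSum_vec (fun P f => (y * cword (bFam P f) Ms) Ω) (fun t ht => ?_)
  have hW : CWGood h.masa Ω ((t, y) :: Ms) :=
    cwgood_cons (hL t ht) hy hMs.2.1 hMs.2.2 (fun _ => hyN)
  exact ⟨_, Submodule.subset_span ⟨_, hW, rfl⟩, Filter.Eventually.of_forall (fun P f => by
    rw [cwvec_at _ hW.2.1]; simp [cword, mul_assoc])⟩

lemma termSum_word {Ms : List (CPos H r)} (hMs : CWGood h.masa Ω Ms) :
    ∃ Ψ ∈ T1 h.masa Ω r ⊔ (S0 h.masa Ω r ⊔ T2 h.masa Ω r),
      ∀ᶠ P in (uf h.masa : Filter (Part A)), ∀ f,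
        Ψ.at' P f = termSum (bFam P f) L (cword (bFam P f) Ms Ω) := by
  have hA := h.masa
  obtain ⟨⟨⟨a0, T0⟩, y⟩, rest, rfl⟩ := List.exists_cons_of_ne_nil hMs.1
  obtain ⟨-, hgood, hN⟩ := hMs
  obtain ⟨ha0, hT0ne, hT0, hy, hsep0⟩ := hgood _ (List.mem_cons_self ..)
  simp only at ha0 hT0ne hT0 hy hsep0
  have hrest : ∀ x ∈ rest, CPos.Good hA x := fun x hx => hgood x (List.mem_cons_of_mem _ hx)
  have hNr : ∀ x ∈ rest.dropLast, OrthN M A Ω x.2 := fun x hx => hN x (by
    rw [List.dropLast_cons_of_ne_nil (fun e => by simp [e] at hx)]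
    exact List.mem_cons_of_mem _ hx)
  have hyN : rest ≠ [] → OrthN M A Ω y := fun hr => hN ((a0, T0), y) (by
    rw [List.dropLast_cons_of_ne_nil hr]; exact List.mem_cons_self ..)
  refine exists_termSum_vec
    (fun P f => cword (bFam P f) (((a0, T0), y) :: rest) Ω) (fun t ht => ?_)
  obtain ⟨α, hα, L', hL', hev⟩ := isNormal_mul_monomial h (hL t ht).1 (t := (a0, T0))
    ⟨ha0, hT0ne, hT0, hsep0⟩ (hL t ht).2.2.1
  have hαy : α * y ∈ M := mul_mem (hA.mem_M hα) hy
  obtain ⟨Ψ₀, hΨ₀, he₀⟩ : ∃ Ψ ∈ S0 hA Ω r ⊔ T2 hA Ω r, ∀ (P : Part A) (f : Fin P.n → Fin r),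
      Ψ.at' P f = (α * y * cword (bFam P f) rest) Ω := by
    by_cases hr : rest = []
    · exact ⟨_, cvec_mem_S0T2 h hαy, fun P f => by rw [cvec_at, hr, cword_nil, mul_one]⟩
    · exact ⟨_, Submodule.mem_sup_right (cwvec_mem_T2 h hαy
        (orthN_mul_left h (cn_of_mem hA hα) hy (hyN hr)) ⟨hr, hrest, hNr⟩),
        fun P f => by rw [cwvec_at _ hrest]⟩
  obtain ⟨Ψ₁, hΨ₁, he₁⟩ := exists_termSum_vec (S := T1 hA Ω r)
    (fun P f => (y * cword (bFam P f) rest) Ω) (L := L') (fun s hs => by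
    have hW : CWGood hA Ω ((s, y) :: rest) := cwgood_cons (hL' s hs) hy hrest hNr hyN
    exact ⟨_, Submodule.subset_span ⟨_, hW, rfl⟩, Filter.Eventually.of_forall (fun P f => by
      rw [cwvec_at _ hW.2.1]; simp [cword, mul_assoc])⟩)
  refine ⟨Ψ₁ + Ψ₀, Submodule.add_mem_sup hΨ₁ hΨ₀, ?_⟩
  filter_upwards [hev, he₁] with P h1 h2 f
  rw [Fam.at'_add, h2, he₀, cword_cons]
  have e := congrArg (fun Z : H →L[ℂ] H => (Z * (y * cword (bFam P f) rest)) Ω) (h1 f)
  simp only [add_mul, add_apply, mul_apply_eq_comp] at e ⊢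
  rw [e, add_comm]

end

/-- Multiplication by a centred piece maps word vectors into the spaces. -/
theorem piece_bound {rc : ℕ} {w : H →L[ℂ] H} (hw : w ∈ M) (hw1 : ‖w‖ ≤ 1) (hN : OrthN M A Ω w) (hr : 1 ≤ rc)
    {X : ∀ P : Part A, (Fin P.n → Fin r) → (H →L[ℂ] H)} (hXn : ∀ P f, ‖X P f‖ ≤ 1)
    (hXs : ∀ P f, IsSelfAdjoint (X P f))
    (hX2 : ∀ P f, X P f * X P f = ((1 - 2 / rc : ℝ) : ℂ) • X P f
      + (((1 / rc) * (1 - 1 / rc) : ℝ) : ℂ) • (1 : H →L[ℂ] H))
    {L : List ((H →L[ℂ] H) × List (Site H r))} (hL : ∀ t ∈ L, TermGood h.masa t)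
    (hev : ∀ᶠ P in (uf h.masa : Filter (Part A)), ∀ f, X P f = termSum (bFam P f) L) :
    ∀ v ∈ (T1 h.masa Ω r ⊔ (S0 h.masa Ω r ⊔ T2 h.masa Ω r)).topologicalClosure,
      ((1 / rc : ℝ) • Wop h.masa r hw1 ((1 / rc : ℝ) • v + Fam.mulOp X hXn v)
        + Fam.mulOp X hXn (Wop h.masa r hw1 ((1 / rc : ℝ) • v + Fam.mulOp X hXn v)))
          ∈ (T1 h.masa Ω r ⊔ (S0 h.masa Ω r ⊔ T2 h.masa Ω r)).topologicalClosure ∧
      ‖(1 / rc : ℝ) • Wop h.masa r hw1 ((1 / rc : ℝ) • v + Fam.mulOp X hXn v)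
        + Fam.mulOp X hXn (Wop h.masa r hw1 ((1 / rc : ℝ) • v + Fam.mulOp X hXn v))‖
        ≤ ((1 / rc : ℝ) ^ 2 + 2 * (1 / rc) + 2 * Real.sqrt ((1 / rc) * (1 - 1 / rc))) * ‖v‖ := by
  have hA := h.masa
  set B := Fam.mulOp (hA := hA) X hXn
  have hr1 : (1 : ℝ) ≤ rc := by exact_mod_cast hr
  have hvar : (0 : ℝ) ≤ (1 / rc) * (1 - 1 / rc) := by
    have : (1 : ℝ) / rc ≤ 1 := (div_le_one (by linarith)).2 hr1
    exact mul_nonneg (by positivity) (by linarith)
  have hBs : ∀ Φ Ψ : Fam hA r, ⟪B Φ, Ψ⟫ = ⟪Φ, B Ψ⟫ := fun Φ Ψ => by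
    refine tendsto_nhds_unique (Fam.tendsto_inner _ Ψ) ((Fam.tendsto_inner Φ _).congr (fun P => ?_))
    simp only [Fam.avg, B, Fam.mulOp_at, sa_inner (hXs P _)]
  have hB2 : ∀ Φ Ψ : Fam hA r, ⟪B Φ, B Ψ⟫ = ((1 - 2 / rc : ℝ) : ℂ) * ⟪Φ, B Ψ⟫
      + ((Real.sqrt ((1 / rc) * (1 - 1 / rc)) ^ 2 : ℝ) : ℂ) * ⟪Φ, Ψ⟫ := fun Φ Ψ => by
    rw [Real.sq_sqrt hvar]
    refine tendsto_nhds_unique (Fam.tendsto_inner (B Φ) (B Ψ))
      ((((Fam.tendsto_inner Φ (B Ψ)).const_mul _).add
        ((Fam.tendsto_inner Φ Ψ).const_mul _)).congr (fun P => ?_))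
    simp only [Fam.avg, B, Fam.mulOp_at]
    rw [mul_left_comm, mul_left_comm _ (_⁻¹), ← mul_add, Finset.mul_sum, Finset.mul_sum,
      ← Finset.sum_add_distrib]
    congr 1
    refine Finset.sum_congr rfl (fun f _ => ?_)
    rw [sa_inner (hXs P f),
      show X P f (X P f (Ψ.at' P f)) = (X P f * X P f) (Ψ.at' P f) from rfl,
      hX2, add_apply, smul_apply, smul_apply, inner_add_right, inner_smul_right,
      inner_smul_right, one_apply_eq_self]
  have hzero : ∀ {Φ Ψ : Fam hA r},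
      (∀ᶠ P in (uf hA : Filter (Part A)), ∀ f, Φ.at' P f = Ψ.at' P f) →
      Φ - Ψ ∈ (T1 hA Ω r).topologicalClosure := fun he =>
    mem_closure_of_eventually (zero_mem _) (by
      filter_upwards [he] with P hP f
      rw [at'_sub, hP f, sub_self, Fam.at'_zero])
  refine norm_sandwich_le (α := 1 - 2 / rc) hBs (Fam.norm_mulOp_le _) (Fam.norm_mulOp_le _)
    (Real.sqrt_nonneg _) (by positivity) hB2
    (D0 := S0 h.masa Ω r) (D1 := T1 h.masa Ω r) (D2 := T2 h.masa Ω r)
    ?_ ?_ ?_ ?_ ?_ ?_ ?_ ?_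
  · intro x hx z hz
    induction hx using Submodule.span_induction with
    | mem v hv =>
      obtain ⟨n, hn, rfl⟩ := hv
      induction hz using Submodule.span_induction with
      | mem u hu =>
        obtain ⟨Ms, hMs, rfl⟩ := hu
        exact inner_cvec_cwvec h hn.1 hMs
      | zero => exact inner_zero_right _
      | add a b _ _ ha hb => rw [inner_add_right, ha, hb, add_zero]
      | smul k a _ ha => rw [inner_smul_right, ha, mul_zero]
    | zero => exact inner_zero_left _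
    | add a b _ _ ha hb => rw [inner_add_left, ha, hb, add_zero]
    | smul k a _ ha => rw [inner_smul_left, ha, mul_zero]
  · intro x hx z hz
    induction hx using Submodule.span_induction with
    | mem v hv =>
      obtain ⟨y, hy, hyN, hv⟩ := hv
      induction hz using Submodule.span_induction with
      | mem u hu =>
        obtain ⟨Ms, hMs, rfl⟩ := hu
        rcases hv with rfl | ⟨Ns, hNs, rfl⟩
        exacts [inner_cvec_cwvec h hy hMs, inner_cwvec_cwvec h hy hyN hNs hMs]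
      | zero => exact inner_zero_right _
      | add a b _ _ ha hb => rw [inner_add_right, ha, hb, add_zero]
      | smul k a _ ha => rw [inner_smul_right, ha, mul_zero]
    | zero => exact inner_zero_left _
    | add a b _ _ ha hb => rw [inner_add_left, ha, hb, add_zero]
    | smul k a _ ha => rw [inner_smul_left, ha, mul_zero]
  · intro x hx
    refine (Submodule.span_le (p := (T1 hA Ω r).topologicalClosure.comap B.toLinearMap)).2 ?_ hx
    rintro _ ⟨n, hn, rfl⟩
    obtain ⟨Ψ, hΨ, he⟩ := termSum_cvec h hL hn.1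
    refine mem_closure_of_eventually hΨ ?_
    filter_upwards [hev, he] with P h1 h2 f
    rw [h2, ← h1]
    change X P f ((cvec hA Ω r n).at' P f) = _
    rw [cvec_at]
  · intro x hx
    refine (Submodule.span_le (p := (T1 hA Ω r).topologicalClosure.comap B.toLinearMap)).2 ?_ hx
    rintro _ ⟨y, hy, hyN, rfl | ⟨Ms, hMs, rfl⟩⟩
    · obtain ⟨Ψ, hΨ, he⟩ := termSum_cvec h hL hy
      refine mem_closure_of_eventually hΨ ?_
      filter_upwards [hev, he] with P h1 h2 f
      rw [h2, ← h1]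
      change X P f ((cvec hA Ω r y).at' P f) = _
      rw [cvec_at]
    · obtain ⟨Ψ, hΨ, he⟩ := termSum_cwvec h hL hy hyN hMs
      refine mem_closure_of_eventually hΨ ?_
      filter_upwards [hev, he] with P h1 h2 f
      rw [h2, ← h1]
      change X P f ((cwvec hA Ω y Ms).at' P f) = _
      rw [cwvec_at _ hMs.2.1]
  · intro x hx
    refine (Submodule.span_le (p := ((T1 hA Ω r).topologicalClosure ⊔
      (S0 hA Ω r ⊔ T2 hA Ω r).topologicalClosure).comap B.toLinearMap)).2 ?_ hx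
    rintro _ ⟨Ms, hMs, rfl⟩
    obtain ⟨Ψ, hΨ, he⟩ := termSum_word h hL hMs
    have hd : B (cwvec hA Ω 1 Ms) - Ψ ∈ (T1 hA Ω r).topologicalClosure := hzero (by
      filter_upwards [hev, he] with P h1 h2 f
      rw [h2, ← h1]
      change X P f ((cwvec hA Ω 1 Ms).at' P f) = _
      rw [cwvec_at _ hMs.2.1, one_mul])
    change B (cwvec hA Ω 1 Ms) ∈ (T1 hA Ω r).topologicalClosure ⊔
      (S0 hA Ω r ⊔ T2 hA Ω r).topologicalClosure
    rw [← sub_add_cancel (B (cwvec hA Ω 1 Ms)) Ψ]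
    obtain ⟨a, ha, b, hb, hab⟩ := Submodule.mem_sup.1 hΨ
    refine add_mem (Submodule.mem_sup_left hd) (hab ▸ Submodule.add_mem_sup
      (Submodule.le_topologicalClosure _ ha) (Submodule.le_topologicalClosure _ hb))
  · intro x hx
    exact Submodule.le_topologicalClosure _
      ((Submodule.span_le (p := (T2 hA Ω r).comap (Wop hA r hw1).toLinearMap)).2 (by
        rintro _ ⟨n, hn, rfl⟩
        have e : Wop hA r hw1 (cvec hA Ω r n) = cvec hA Ω r (w * n) :=
          Fam.ext' (fun P f => by rw [Wop_at, cvec_at, cvec_at]; rfl)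
        change Wop hA r hw1 (cvec hA Ω r n) ∈ T2 hA Ω r
        rw [e]
        exact Submodule.subset_span ⟨w * n, mul_mem hw hn.1, orthN_mul_right h hn hw hN,
          Or.inl rfl⟩) hx)
  · intro x hx
    exact Submodule.le_topologicalClosure _
      ((Submodule.span_le (p := (T2 hA Ω r).comap (Wop hA r hw1).toLinearMap)).2 (by
        rintro _ ⟨Ms, hMs, rfl⟩
        have e : Wop hA r hw1 (cwvec hA Ω 1 Ms) = cwvec hA Ω w Ms :=
          Fam.ext' (fun P f => by
            rw [Wop_at, cwvec_at _ hMs.2.1, cwvec_at _ hMs.2.1, one_mul]; rfl)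
        change Wop hA r hw1 (cwvec hA Ω 1 Ms) ∈ T2 hA Ω r
        rw [e]
        exact cwvec_mem_T2 h hw hN hMs) hx)
  · intro x hx
    exact (Submodule.span_le (p := ((T1 hA Ω r ⊔ (S0 hA Ω r ⊔ T2 hA Ω r)).topologicalClosure).comap
      (Wop hA r hw1).toLinearMap)).2 (by
        rintro _ ⟨y, hy, hyN, rfl | ⟨Ms, hMs, rfl⟩⟩
        · have e : Wop hA r hw1 (cvec hA Ω r y) = cvec hA Ω r (w * y) :=
            Fam.ext' (fun P f => by rw [Wop_at, cvec_at, cvec_at]; rfl)
          change Wop hA r hw1 (cvec hA Ω r y) ∈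
            (T1 hA Ω r ⊔ (S0 hA Ω r ⊔ T2 hA Ω r)).topologicalClosure
          rw [e]
          exact Submodule.le_topologicalClosure _
            (Submodule.mem_sup_right (cvec_mem_S0T2 h (mul_mem hw hy)))
        · have e : Wop hA r hw1 (cwvec hA Ω y Ms) = cwvec hA Ω (w * y) Ms :=
            Fam.ext' (fun P f => by
              rw [Wop_at, cwvec_at _ hMs.2.1, cwvec_at _ hMs.2.1, mul_assoc w y]; rfl)
          obtain ⟨n, hn, -, hrest, -⟩ := exists_decomp h (mul_mem hw hy)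
          change Wop hA r hw1 (cwvec hA Ω y Ms) ∈
            (T1 hA Ω r ⊔ (S0 hA Ω r ⊔ T2 hA Ω r)).topologicalClosure
          rw [e, show w * y = n + (w * y - n) by abel, cwvec_add _ _ hMs.2.1]
          exact add_mem (Submodule.topologicalClosure_mono le_sup_left (cn_cword_mem h hn hMs))
            (Submodule.le_topologicalClosure _ (Submodule.mem_sup_right (Submodule.mem_sup_right
              (cwvec_mem_T2 h (sub_mem (mul_mem hw hy) hn.1.1) hrest hMs))))) hx

end Vale.Agent.P078.TypeIII.Seeded
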