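import Vale.Agent.P078.Sharp.Mix.Main
import Vale.Agent.P078.TypeIII.Singular.Main
import Vale.Agent.P078.TypeIII.Seeded.Spaces

/-!
# Paving the part orthogonal to the normalisers by seed colourings, without a trace

The average over the seeds of the truncation error of the pinched element is small on fine
partitions, so the seeds can afterwards be chosen for several requirements at once.
-/

set_option linter.unusedSectionVars false

namespace Vale.Agent.P078.TypeIII.Seeded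

open ComplexInnerProductSpace
open Filter Topology
open Vale.Agent.P078 Vale.Agent.P078.General Vale.Agent.P078.Finite Vale.Agent.P078.Sharp
open scoped CStarAlgebra

universe u

variable {H : Type u} [NormedAddCommGroup H] [InnerProductSpace ℂ H] [CompleteSpace H]
variable {M : VonNeumannAlgebra H} {A : StarSubalgebra ℂ (H →L[ℂ] H)} {Ω : H}

variable (h : CentSetting M A Ω)
include h

/-- The average moment of one colour. -/
lemma eventually_seed_moment {r s : ℕ} [NeZero s] (c : Fin r) {w : H →L[ℂ] H} (hw : w ∈ M) (hw1 : ‖w‖ ≤ 1)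
    (hN : OrthN M A Ω w) {N : ℕ} {u : Fin N → H →L[ℂ] H} (hu : ∀ i, IsNormaliser M A (u i))
    {coef : (Fin N → Fin s) → Fin r → H →L[ℂ] H} (hcoef : ∀ κ c, coef κ c ∈ A)
    (hproj : ∀ (P : Part A) (f : Fin P.n → Fin s), IsStarProjection (seedCol P u coef f c))
    (hunif : ∀ᶠ P in (uf h.masa : Filter (Part A)), ∑ f : Fin P.n → Fin s, seedCol P u coef f c
      = ((Fintype.card (Fin P.n → Fin s) : ℂ) / r) • 1)
    (k : ℕ) {ε : ℝ} (hε : 0 < ε) :
    ∀ᶠ P in (uf h.masa : Filter (Part A)),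
      ((Fintype.card (Fin P.n → Fin s) : ℝ))⁻¹ *
        ∑ f : Fin P.n → Fin s, ‖((seedCol P u coef f c * w * seedCol P u coef f c) ^ k) Ω‖ ^ 2
        ≤ ((5 / Real.sqrt r) ^ k * ‖Ω‖) ^ 2 + ε := by
  have hA := h.masa
  set X : ∀ P : Part A, (Fin P.n → Fin s) → (H →L[ℂ] H) := fun P f =>
    seedCol P u coef f c - ((1 / r : ℝ) : ℂ) • 1 with hX
  obtain ⟨L, hL, hev⟩ := exists_centred h hu hcoef c hunif
  have hX2 : ∀ P f, X P f * X P f = ((1 - 2 / r : ℝ) : ℂ) • X P f
      + (((1 / r) * (1 - 1 / r) : ℝ) : ℂ) • (1 : H →L[ℂ] H) := fun P f => centred_sq _ (hproj P f)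
  have hXs : ∀ P f, IsSelfAdjoint (X P f) := fun P f => centred_sa _ (hproj P f)
  have hXn : ∀ P f, ‖X P f‖ ≤ 1 := fun P f => norm_centred_le (hproj P f) c.pos
  set T : Fam hA s → Fam hA s := fun v => (1 / r : ℝ) • Wop hA s hw1 ((1 / r : ℝ) • v
      + Fam.mulOp X hXn v)
    + Fam.mulOp X hXn (Wop hA s hw1 ((1 / r : ℝ) • v + Fam.mulOp X hXn v)) with hT
  set C := (5 / Real.sqrt r : ℝ) with hC
  have hr1 : (1 : ℝ) ≤ r := by exact_mod_cast c.pos
  have hCle : (1 / r : ℝ) ^ 2 + 2 * (1 / r) + 2 * Real.sqrt ((1 / r) * (1 - 1 / r)) ≤ C := by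
    have hs : 1 ≤ Real.sqrt r := Real.one_le_sqrt.2 hr1
    have hss : Real.sqrt r * Real.sqrt r = r := Real.mul_self_sqrt (by linarith)
    have h1 : (1 : ℝ) / r ≤ 1 / Real.sqrt r :=
      one_div_le_one_div_of_le (by linarith) (by nlinarith)
    have h2 : (1 : ℝ) / r ≤ 1 := (div_le_one (by linarith)).2 hr1
    have h3 : (0 : ℝ) ≤ 1 / r := by positivity
    have h4 : Real.sqrt ((1 / r) * (1 - 1 / r)) ≤ 1 / Real.sqrt r := by
      rw [Real.sqrt_le_left (by positivity), div_pow, one_pow, Real.sq_sqrt (by linarith)]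
      exact mul_le_of_le_one_right h3 (by linarith)
    have h5 : C = 5 * (1 / Real.sqrt r) := by rw [hC]; ring
    rw [h5]
    nlinarith
  have hv0 : cvec hA Ω s 1 ∈
      (T1 hA Ω s ⊔ (S0 hA Ω s ⊔ T2 hA Ω s)).topologicalClosure :=
    Submodule.le_topologicalClosure _ (Submodule.mem_sup_right (Submodule.mem_sup_left
      (Submodule.subset_span ⟨1, (cn_of_mem hA (one_mem A)).1, rfl⟩)))
  have hiter : ∀ n, T^[n] (cvec hA Ω s 1) ∈
      (T1 hA Ω s ⊔ (S0 hA Ω s ⊔ T2 hA Ω s)).topologicalClosure ∧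
      ‖T^[n] (cvec hA Ω s 1)‖ ≤ C ^ n * ‖Ω‖ := by
    intro n
    induction n with
    | zero =>
      refine ⟨hv0, ?_⟩
      rw [Function.iterate_zero, id, pow_zero, one_mul]
      exact Fam.norm_le_of_eventually (norm_nonneg _)
        (Filter.Eventually.of_forall (fun P f => by rw [cvec_at, one_apply_eq_self]))
    | succ n ih =>
      obtain ⟨hm, hn⟩ := piece_bound h (rc := r) hw hw1 hN c.pos hXn hXs hX2 hL hev _ ih.1
      rw [Function.iterate_succ_apply']
      refine ⟨hm, hn.trans ?_⟩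
      rw [pow_succ' C n, mul_assoc]
      exact mul_le_mul hCle ih.2 (norm_nonneg _) (by positivity)
  have hstep : ∀ (v : Fam hA s) (P : Part A) (f : Fin P.n → Fin s),
      (T v).at' P f = (seedCol P u coef f c * w * seedCol P u coef f c) (v.at' P f) := fun v P f => by
    simp only [hT, ← Complex.coe_smul, Fam.at'_add, Fam.at'_smul, Fam.mulOp_at, Wop_at, hX, mul_apply_eq_comp, sub_apply, smul_apply, one_apply_eq_self]
    simp only [map_add, map_sub, map_smul]
    module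
  have hat : ∀ n (P : Part A) (f : Fin P.n → Fin s),
      (T^[n] (cvec hA Ω s 1)).at' P f = ((seedCol P u coef f c * w * seedCol P u coef f c) ^ n) Ω := by
    intro n P f
    induction n with
    | zero => rw [Function.iterate_zero, id, cvec_at, pow_zero]
    | succ n ih =>
      rw [Function.iterate_succ_apply', hstep, ih, pow_succ']
      rfl
  have hlim := (T^[k] (cvec hA Ω s 1)).tendsto_norm_sq
  have hlt : ‖T^[k] (cvec hA Ω s 1)‖ ^ 2 < (C ^ k * ‖Ω‖) ^ 2 + ε :=
    lt_of_le_of_lt (pow_le_pow_left₀ (norm_nonneg _) (hiter k).2 2) (by linarith)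
  filter_upwards [hlim.eventually (gt_mem_nhds hlt)] with P hP
  simp only [← hat]
  exact hP.le

/-- **Paving of the mixing part by seed colourings, on average.** -/
theorem mix_avg_seeded {w : H →L[ℂ] H} (hw : w ∈ M) (hws : IsSelfAdjoint w) (hw1 : ‖w‖ ≤ 1)
    (hN : OrthN M A Ω w) {r s : ℕ} [NeZero s] (hr : 1 ≤ r) {N : ℕ} {u : Fin N → H →L[ℂ] H}
    (hu : ∀ i, IsNormaliser M A (u i))
    {coef : (Fin N → Fin s) → Fin r → H →L[ℂ] H} (hcoef : ∀ κ c, coef κ c ∈ A)
    (hproj : ∀ (P : Part A) (f : Fin P.n → Fin s) c, IsStarProjection (seedCol P u coef f c))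
    (horth : ∀ (P : Part A) (f : Fin P.n → Fin s) c d, c ≠ d →
      seedCol P u coef f c * seedCol P u coef f d = 0)
    (hunif : ∀ c, ∀ᶠ P in (uf h.masa : Filter (Part A)),
      ∑ f : Fin P.n → Fin s, seedCol P u coef f c
        = ((Fintype.card (Fin P.n → Fin s) : ℂ) / r) • 1) {η : ℝ} (hη : 0 < η) :
    ∀ᶠ P in (uf h.masa : Filter (Part A)),
      ((Fintype.card (Fin P.n → Fin s) : ℝ))⁻¹ * ∑ f : Fin P.n → Fin s,
        ‖((∑ c, seedCol P u coef f c * w * seedCol P u coef f c)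
          - cfc (clamp (8 / Real.sqrt r))
              (∑ c, seedCol P u coef f c * w * seedCol P u coef f c)) Ω‖ ^ 2 ≤ η := by
  have hA := h.masa
  have hr0 : (0 : ℝ) < r := by exact_mod_cast hr
  set t := (8 / Real.sqrt r : ℝ) with ht
  have ht0 : 0 < t := by positivity
  set C := (5 / Real.sqrt r : ℝ) with hC
  have hC0 : 0 ≤ C := by positivity
  obtain ⟨m, hm⟩ : ∃ m : ℕ, r * ((C * ‖Ω‖) ^ 2 * ((5 / 8 : ℝ) ^ 2) ^ m) ≤ η / 2 := by
    have hlim := ((tendsto_pow_atTop_nhds_zero_of_lt_one (by norm_num : (0 : ℝ) ≤ (5 / 8) ^ 2)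
      (by norm_num : ((5 : ℝ) / 8) ^ 2 < 1)).const_mul ((C * ‖Ω‖) ^ 2)).const_mul (r : ℝ)
    rw [mul_zero, mul_zero] at hlim
    exact (hlim.eventually (ge_mem_nhds (by positivity : (0 : ℝ) < η / 2))).exists
  set ε := (t ^ m) ^ 2 * η / (2 * r) with hεdef
  have hε : 0 < ε := by positivity
  filter_upwards [eventually_all.2 (fun c : Fin r => eventually_seed_moment h c hw hw1 hN hu hcoef
    (fun P f => hproj P f c) (hunif c) (m + 1) hε)] with P hP
  have hN0 : (0 : ℝ) < Fintype.card (Fin P.n → Fin s) := by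
    have : Nonempty (Fin P.n → Fin s) := ⟨fun _ => 0⟩
    exact_mod_cast Fintype.card_pos
  set q := fun f : Fin P.n → Fin s => seedCol P u coef f with hq
  have hqA : ∀ f c, q f c ∈ A := fun f c =>
    sum_mem (fun κ _ => mul_mem (hcoef κ c) (list_prod_mem (fun x hx => by
      rw [List.mem_ofFn] at hx
      obtain ⟨i, rfl⟩ := hx
      exact (hu i).conj_mem ((P.piece_props f).1 _).1)))
  have hper : ∀ f, (t ^ m) ^ 2 * ‖((∑ c, q f c * w * q f c)
      - cfc (clamp t) (∑ c, q f c * w * q f c)) Ω‖ ^ 2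
      ≤ ∑ c, ‖((q f c * w * q f c) ^ (m + 1)) Ω‖ ^ 2 := by
    intro f
    have hSs : IsSelfAdjoint (∑ c, q f c * w * q f c) := by
      refine isSelfAdjoint_sum _ (fun c _ => ?_)
      change star _ = _
      simp only [hq, star_mul, (hproj P f c).isSelfAdjoint.star_eq, hws.star_eq, mul_assoc]
    refine (Singular.clamp_bound h hSs ht0 m).trans (le_of_eq ?_)
    rw [pow_sum_orth (q := q f) (horth P f), _root_.sum_apply]
    have hsplit : ∀ c, ((q f c * w * q f c) ^ (m + 1)) Ω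
        = q f c (w (q f c (((q f c * w * q f c) ^ m) Ω))) := fun c => by
      rw [pow_succ']; rfl
    simp only [hsplit]
    exact norm_sq_sum_left Finset.univ (q f) (fun c => hproj P f c) (horth P f)
      (fun c => w (q f c (((q f c * w * q f c) ^ m) Ω)))
  have hpos : (0 : ℝ) < (t ^ m) ^ 2 := by positivity
  refine le_of_mul_le_mul_left ?_ hpos
  calc (t ^ m) ^ 2 * (((Fintype.card (Fin P.n → Fin s) : ℝ))⁻¹ * ∑ f : Fin P.n → Fin s,
        ‖((∑ c, q f c * w * q f c) - cfc (clamp t) (∑ c, q f c * w * q f c)) Ω‖ ^ 2)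
      ≤ ∑ c, ((Fintype.card (Fin P.n → Fin s) : ℝ))⁻¹ *
          ∑ f : Fin P.n → Fin s, ‖((q f c * w * q f c) ^ (m + 1)) Ω‖ ^ 2 := by
        rw [mul_left_comm, ← Finset.mul_sum, Finset.mul_sum, Finset.sum_comm (γ := Fin r)]
        exact mul_le_mul_of_nonneg_left (Finset.sum_le_sum (fun f _ => hper f))
          (inv_nonneg.2 hN0.le)
    _ ≤ ∑ _c : Fin r, ((C ^ (m + 1) * ‖Ω‖) ^ 2 + ε) := Finset.sum_le_sum (fun c _ => hP c)
    _ ≤ (t ^ m) ^ 2 * η := by
        rw [Finset.sum_const, Finset.card_univ, Fintype.card_fin, nsmul_eq_mul]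
        have e1 : (C ^ (m + 1) * ‖Ω‖) ^ 2
            = (t ^ m) ^ 2 * ((C * ‖Ω‖) ^ 2 * ((5 / 8 : ℝ) ^ 2) ^ m) := by
          have : C = (5 / 8) * t := by rw [hC, ht]; ring
          rw [this]
          generalize (5 / 8 : ℝ) = q
          ring
        have h2 := mul_le_mul_of_nonneg_left hm (sq_nonneg (t ^ m))
        have e2 : (r : ℝ) * ε = (t ^ m) ^ 2 * η / 2 := by rw [hεdef]; field_simp
        rw [mul_add, e2, e1]
        nlinarith

/-- A projection small at `Ω`, such as the deleted part, stays small after a pinched element,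
with a bound linear in its square norm at `Ω` and uniform in the pieces. -/
theorem exists_pinched_bound {x : H →L[ℂ] H} (hx : x ∈ M) (r : ℕ) {η : ℝ} (hη : 0 < η) :
    ∃ K : ℝ, 0 ≤ K ∧ ∀ T ∈ M, ‖T‖ ≤ 1 → ∀ q : Fin r → (H →L[ℂ] H),
      (∀ c, q c ∈ A ∧ ‖q c‖ ≤ 1) →
        ‖(T * ∑ c, q c * x * q c) Ω‖ ^ 2 ≤ η + K * ‖T Ω‖ ^ 2 := by
  have hA := h.masa
  obtain ⟨ε, hε, hw⟩ := exists_eps_Aword h (ys := [x, 1])
    (fun y hy => by
      simp only [List.mem_cons, List.not_mem_nil, or_false] at hy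
      rcases hy with rfl | rfl
      exacts [hx, one_mem M])
    (C := 1) zero_le_one (show 0 < Real.sqrt η / ((r : ℝ) + 1) by positivity)
  refine ⟨((r : ℝ) * ‖x‖ * ‖Ω‖) ^ 2 / ε ^ 2, by positivity, fun T hT hT1 q hq => ?_⟩
  have hterm : ∀ c, ‖(T * (q c * x * q c)) Ω‖ ≤ ‖x‖ * ‖Ω‖ := fun c => by
    refine (ContinuousLinearMap.le_opNorm _ _).trans
      (mul_le_mul_of_nonneg_right ?_ (norm_nonneg _))
    refine (norm_mul_le _ _).trans ((mul_le_of_le_one_left (norm_nonneg _) hT1).trans ?_)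
    refine (norm_mul_le _ _).trans ((mul_le_of_le_one_right (norm_nonneg _) (hq c).2).trans ?_)
    exact (norm_mul_le _ _).trans (mul_le_of_le_one_left (norm_nonneg _) (hq c).2)
  rw [Finset.mul_sum, _root_.sum_apply]
  have hK : 0 ≤ ((r : ℝ) * ‖x‖ * ‖Ω‖) ^ 2 / ε ^ 2 * ‖T Ω‖ ^ 2 := by positivity
  by_cases hs : ‖T Ω‖ ≤ ε
  · have h1 : ∀ c, ‖(T * (q c * x * q c)) Ω‖ ≤ Real.sqrt η / ((r : ℝ) + 1) := fun c => by
      have := hw T hT hT1 hs [(q c, x), (q c, 1)] rfl (fun z hz => by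
        simp only [List.mem_cons, List.not_mem_nil, or_false] at hz
        rcases hz with rfl | rfl <;> exact hq c)
      simpa [mul_assoc] using this
    have h2 : ‖∑ c, (T * (q c * x * q c)) Ω‖ ≤ Real.sqrt η := by
      refine (norm_sum_le _ _).trans ((Finset.sum_le_sum (fun c _ => h1 c)).trans ?_)
      rw [Finset.sum_const, Finset.card_univ, Fintype.card_fin, nsmul_eq_mul, mul_div_assoc',
        div_le_iff₀ (by positivity)]
      nlinarith [Real.sqrt_nonneg η]
    have h3 := (pow_le_pow_left₀ (norm_nonneg _) h2 2).trans (Real.sq_sqrt hη.le).le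
    linarith
  · have h2 : ‖∑ c, (T * (q c * x * q c)) Ω‖ ≤ (r : ℝ) * ‖x‖ * ‖Ω‖ := by
      refine (norm_sum_le _ _).trans ((Finset.sum_le_sum (fun c _ => hterm c)).trans (le_of_eq ?_))
      rw [Finset.sum_const, Finset.card_univ, Fintype.card_fin, nsmul_eq_mul, mul_assoc]
    have h3 : ε ^ 2 ≤ ‖T Ω‖ ^ 2 := pow_le_pow_left₀ hε.le (not_le.1 hs).le 2
    have h4 := pow_le_pow_left₀ (norm_nonneg _) h2 2
    have h5 : ((r : ℝ) * ‖x‖ * ‖Ω‖) ^ 2
        ≤ ((r : ℝ) * ‖x‖ * ‖Ω‖) ^ 2 / ε ^ 2 * ‖T Ω‖ ^ 2 := by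
      rw [div_mul_eq_mul_div, le_div_iff₀ (by positivity)]
      exact mul_le_mul_of_nonneg_left h3 (sq_nonneg _)
    linarith

end Vale.Agent.P078.TypeIII.Seeded
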